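import Vale.Agent.P043.Gadgets

/-!
Tile equations for graphs inside a cyclic extension of the index group by the value group.
-/

open Finset Function

set_option linter.unusedSectionVars false

namespace Vale.Agent.P043.Three

variable {J : Type*} [Fintype J] [DecidableEq J] {q : J → ℕ} [∀ j, NeZero (q j)] {S : ℕ} [NeZero S]

/-- The extension of the index group by the value group. -/
abbrev Ext (q : J → ℕ) (S : ℕ) := ((j : J) → ZMod (q j ^ 2)) × ZMod S

/-- The chosen representative of an index. -/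
def sec (x : Idx q) : Ext q S := (fun j => (((x j).val : ℕ) : ZMod (q j ^ 2)), 0)

/-- The inclusion of the values. -/
def emb : Val q S →+ Ext q S where
  toFun w := (fun j => ((q j * (w.1 j).val : ℕ) : ZMod (q j ^ 2)), w.2)
  map_zero' := by
    refine Prod.ext (funext fun j => ?_) rfl
    simp
  map_add' w w' := by
    refine Prod.ext (funext fun j => ?_) rfl
    simp only [Prod.fst_add, Pi.add_apply]
    rw [← Nat.cast_add, ← mul_add, ZMod.natCast_eq_natCast_iff', pow_two, Nat.mul_mod_mul_left,
      Nat.mul_mod_mul_left, ZMod.val_add, Nat.mod_mod]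

/-- The carry of an addition of indices. -/
def carry (x u : Idx q) : Val q S :=
  (fun j => ((if q j ≤ (x j).val + (u j).val then 1 else 0 : ℕ) : ZMod (q j)), 0)

lemma carry_apply_eq_zero {x u : Idx q} {j : J} (h : u j = 0) :
    (carry (S := S) x u).1 j = 0 := by
  have := (x j).val_lt
  simp [carry, h, Nat.not_le.2 this]

@[simp] lemma carry_zero (x : Idx q) : carry (S := S) x 0 = 0 :=
  Prod.ext (funext fun _ => carry_apply_eq_zero rfl) rfl

lemma sec_add (x u : Idx q) :
    (sec x + sec u : Ext q S) = sec (x + u) + emb (carry x u) := by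
  refine Prod.ext (funext fun j => ?_) (by simp [sec, emb, carry])
  have h1 := (x j).val_lt
  have h2 := (u j).val_lt
  simp only [sec, emb, carry, Prod.fst_add, Pi.add_apply, AddMonoidHom.coe_mk, ZeroHom.coe_mk]
  rw [← Nat.cast_add, ← Nat.cast_add]
  congr 1
  by_cases h : q j ≤ (x j).val + (u j).val
  · have hq : 1 < q j := by
      rcases Nat.lt_or_ge 1 (q j) with h' | h'
      · exact h'
      · omega
    rw [if_pos h, Nat.cast_one, ZMod.val_one'' (by omega), mul_one, ZMod.val_add_of_le h]
    omega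
  · rw [if_neg h, Nat.cast_zero, ZMod.val_zero, ZMod.val_add_of_lt (Nat.not_le.1 h)]
    omega

lemma sec_emb_inj {x x' : Idx q} {w w' : Val q S}
    (h : (sec x + emb w : Ext q S) = sec x' + emb w') : x = x' ∧ w = w' := by
  have h2 : w.2 = w'.2 := by
    have := congrArg Prod.snd h
    simpa [sec, emb] using this
  have key : ∀ j, x j = x' j ∧ w.1 j = w'.1 j := by
    intro j
    have e := congrArg (fun g : Ext q S => g.1 j) h
    simp only [sec, emb, Prod.fst_add, Pi.add_apply, AddMonoidHom.coe_mk, ZeroHom.coe_mk,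
      ← Nat.cast_add] at e
    have a1 := (x j).val_lt
    have a2 := (x' j).val_lt
    have b1 := (w.1 j).val_lt
    have b2 := (w'.1 j).val_lt
    have lt : ∀ a b, a < q j → b < q j → a + q j * b < q j ^ 2 := fun a b ha hb => by
      have := Nat.mul_le_mul_left (q j) (show b + 1 ≤ q j by omega)
      rw [pow_two]
      rw [mul_add, mul_one] at this
      omega
    rw [ZMod.natCast_eq_natCast_iff', Nat.mod_eq_of_lt (lt _ _ a1 b1),
      Nat.mod_eq_of_lt (lt _ _ a2 b2)] at e
    have d1 := congrArg (· % q j) e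
    simp only [Nat.add_mul_mod_self_left, Nat.mod_eq_of_lt a1, Nat.mod_eq_of_lt a2] at d1
    refine ⟨ZMod.val_injective _ d1, ZMod.val_injective _ ?_⟩
    exact Nat.eq_of_mul_eq_mul_left (NeZero.pos (q j)) (by omega)
  exact ⟨funext fun j => (key j).1, Prod.ext (funext fun j => (key j).2) h2⟩

lemma sec_emb_surj : Surjective fun p : Idx q × Val q S => (sec p.1 + emb p.2 : Ext q S) := by
  refine ((Fintype.bijective_iff_injective_and_card _).2
    ⟨fun p p' h => Prod.ext (sec_emb_inj h).1 (sec_emb_inj h).2, ?_⟩).2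
  simp [Fintype.card_prod, Fintype.card_pi, pow_two, Finset.prod_mul_distrib, mul_assoc]

/-- The ambient group. -/
abbrev Space (q : J → ℕ) (S : ℕ) := (ℤ × ℤ) × Ext q S

/-- The graph of a function. -/
def graphOf (a : ℤ × ℤ → Idx q → Val q S) : Set (Space q S) :=
  {g | ∃ x, g.2 = sec x + emb (a g.1 x)}

lemma mem_graphOf {a : ℤ × ℤ → Idx q → Val q S} {n : ℤ × ℤ} {x : Idx q} {w : Val q S} :
    (n, sec x + emb w) ∈ graphOf a ↔ w = a n x := by
  constructor
  · rintro ⟨x', h⟩
    obtain ⟨rfl, h2⟩ := sec_emb_inj h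
    exact h2
  · rintro rfl
    exact ⟨x, rfl⟩

/-- The tile with pieces at shift `(sN k, u k)` and translation `t k`. -/
def eqTile {K : Type*} [Fintype K] (sN : K → ℤ × ℤ) (u : K → Idx q) (t : K → Val q S) :
    Finset (Space q S) :=
  univ.image fun k => (-sN k, emb (t k) - sec (u k))

/-- The covering map of an equation at an anchor. -/
def cov {K : Type*} (a : ℤ × ℤ → Idx q → Val q S) (sN : K → ℤ × ℤ) (u : K → Idx q)
    (t : K → Val q S) (n : ℤ × ℤ) (x : Idx q) (k : K) : Val q S :=
  t k + a (n + sN k) (x + u k) - carry x (u k)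

variable {K : Type*} [Fintype K] {a : ℤ × ℤ → Idx q → Val q S} {sN : K → ℤ × ℤ}
  {u : K → Idx q} {t : K → Val q S}

omit [Fintype K] in
lemma sub_mem_iff (n : ℤ × ℤ) (x : Idx q) (w : Val q S) (k : K) :
    ((n, sec x + emb w) - (-sN k, emb (t k) - sec (u k)) : Space q S) ∈ graphOf a ↔
      cov a sN u t n x k = w := by
  have e : ((n, sec x + emb w) - (-sN k, emb (t k) - sec (u k)) : Space q S) =
      (n + sN k, sec (x + u k) + emb (carry x (u k) + w - t k)) := by
    refine Prod.ext (sub_neg_eq_add n (sN k)) ?_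
    show sec x + emb w - (emb (t k) - sec (u k)) = _
    rw [map_sub, map_add, show sec x + emb w - (emb (t k) - sec (u k)) =
      (sec x + sec (u k)) + emb w - emb (t k) by abel, sec_add]
    abel
  rw [e, mem_graphOf, cov]
  constructor
  · intro h; rw [← h]; abel
  · intro h; rw [← h]; abel

lemma tiles_of_bijective (h : ∀ n x, Bijective (cov a sN u t n x)) :
    Tiles (eqTile sN u t) (graphOf a) := by
  rintro ⟨n, g⟩
  obtain ⟨⟨x, w⟩, rfl⟩ := sec_emb_surj g
  obtain ⟨k, hk, huniq⟩ := (h n x).existsUnique w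
  refine ⟨(-sN k, emb (t k) - sec (u k)), ⟨mem_image.2 ⟨k, mem_univ _, rfl⟩,
    (sub_mem_iff n x w k).2 hk⟩, ?_⟩
  rintro f ⟨hf, hA⟩
  obtain ⟨i, -, rfl⟩ := mem_image.1 hf
  rw [huniq i ((sub_mem_iff n x w i).1 hA)]

/-- Distinct indices give distinct pieces. -/
lemma piece_inj (hinj : Injective fun k => (sN k, u k, t k)) :
    Injective fun k => ((-sN k, emb (t k) - sec (u k)) : Space q S) := by
  intro i k h
  simp only [Prod.mk.injEq, neg_inj] at h
  obtain ⟨h1, h2⟩ := h
  rw [sub_eq_sub_iff_add_eq_add, add_comm, add_comm (emb (t k))] at h2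
  obtain ⟨h3, h4⟩ := sec_emb_inj h2
  exact hinj (Prod.ext h1 (Prod.ext h3.symm h4))

lemma bijective_of_tiles (hinj : Injective fun k => (sN k, u k, t k))
    (h : Tiles (eqTile sN u t) (graphOf a)) (n : ℤ × ℤ) (x : Idx q) :
    Bijective (cov a sN u t n x) := by
  constructor
  · intro i k hik
    exact piece_inj hinj ((h (n, sec x + emb (cov a sN u t n x i))).unique
      ⟨mem_image.2 ⟨i, mem_univ _, rfl⟩, (sub_mem_iff n x _ i).2 rfl⟩
      ⟨mem_image.2 ⟨k, mem_univ _, rfl⟩, (sub_mem_iff n x _ k).2 hik.symm⟩)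
  · intro w
    obtain ⟨f, ⟨hf, hA⟩, -⟩ := h (n, sec x + emb w)
    obtain ⟨i, -, rfl⟩ := mem_image.1 hf
    exact ⟨i, (sub_mem_iff n x w i).1 hA⟩

/-- The tile whose tilings are the graphs. -/
def graphTile : Finset (Space q S) :=
  eqTile (fun _ : Val q S => 0) (fun _ => 0) id

lemma graph_tiles (a : ℤ × ℤ → Idx q → Val q S) : Tiles graphTile (graphOf a) :=
  tiles_of_bijective fun n x => by
    have : cov a (fun _ : Val q S => 0) (fun _ => 0) id n x = fun w => w + a n x := by
      funext w; simp [cov]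
    rw [this]; exact (Equiv.addRight (a n x)).bijective

lemma exists_graph {A : Set (Space q S)} (h : Tiles graphTile A) :
    ∃ a : ℤ × ℤ → Idx q → Val q S, A = graphOf a := by
  have key : ∀ n x, ∃! w, (n, sec x + emb w) ∈ A := by
    intro n x
    have e : ∀ w, ((n, sec x) : Space q S) - (-(0 : ℤ × ℤ), emb w - sec (0 : Idx q)) =
        (n, sec x + emb (-w)) := fun w => by
      have h0 : (sec (0 : Idx q) : Ext q S) = 0 := Prod.ext (funext fun j => by simp [sec]) rfl
      refine Prod.ext (by simp) ?_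
      show sec x - (emb w - sec 0) = _
      rw [h0, sub_zero, map_neg, sub_eq_add_neg]
    obtain ⟨f, ⟨hf, hA⟩, huniq⟩ := h (n, sec x)
    obtain ⟨w, -, rfl⟩ := mem_image.1 hf
    rw [id, e] at hA
    refine ⟨-w, hA, fun v hv => ?_⟩
    have := huniq (-(0 : ℤ × ℤ), emb (-v) - sec (0 : Idx q))
      ⟨mem_image.2 ⟨-v, mem_univ _, rfl⟩, by rw [e, neg_neg]; exact hv⟩
    simp only [Prod.mk.injEq, id, sub_left_inj, true_and] at this
    have := (sec_emb_inj (x := (0 : Idx q)) (x' := 0) (congrArg (sec 0 + ·) this)).2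
    rw [← this, neg_neg]
  choose a ha hu using key
  refine ⟨a, Set.ext fun g => ?_⟩
  obtain ⟨n, g⟩ := g
  obtain ⟨⟨x, w⟩, rfl⟩ := sec_emb_surj g
  dsimp only
  rw [mem_graphOf]
  exact ⟨fun hg => hu n x w hg, fun hw => hw ▸ ha n x⟩

/-- The equation asserting that component `j` is invariant under a shift. -/
def equalTile (j : J) (hN : ℤ × ℤ) (hX : Idx q) : Finset (Space q S) :=
  eqTile (fun w : Val q S => if w.1 j = 0 then hN else 0)
    (fun w : Val q S => if w.1 j = 0 then hX else 0) id

variable (a)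

lemma equal_sound {j : J} {hN : ℤ × ℤ} {hX : Idx q} (hX0 : hX j = 0)
    (h : Tiles (equalTile j hN hX) (graphOf a)) (n : ℤ × ℤ) (x : Idx q) :
    (a (n + hN) (x + hX)).1 j = (a n x).1 j := by
  have hb := bijective_of_tiles (fun k i hki => (Prod.mk.inj (Prod.mk.inj hki).2).2) h n x
  by_contra hne
  set w := a (n + hN) (x + hX) - carry x hX - a n x with hwd
  have hw : w.1 j ≠ 0 := by
    simp only [hwd, Prod.fst_sub, Pi.sub_apply, carry_apply_eq_zero hX0, sub_zero]
    exact sub_ne_zero.2 hne
  have e : cov a (fun w : Val q S => if w.1 j = 0 then hN else 0)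
      (fun w : Val q S => if w.1 j = 0 then hX else 0) id n x 0 =
    cov a (fun w : Val q S => if w.1 j = 0 then hN else 0)
      (fun w : Val q S => if w.1 j = 0 then hX else 0) id n x w := by
    simp [cov, hw]
    rw [hwd]; abel
  rw [← hb.1 e] at hw
  exact hw rfl

lemma equal_complete {j : J} {hN : ℤ × ℤ} {hX : Idx q} (hX0 : hX j = 0)
    (h : ∀ n x, (a (n + hN) (x + hX)).1 j = (a n x).1 j) :
    Tiles (equalTile j hN hX) (graphOf a) := by
  refine tiles_of_bijective fun n x => Finite.injective_iff_bijective.1 fun w w' hww => ?_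
  simp only [cov, id] at hww
  have hg : ∀ v : Val q S,
      (a (n + if v.1 j = 0 then hN else 0) (x + if v.1 j = 0 then hX else 0) -
        carry x (if v.1 j = 0 then hX else 0)).1 j = (a n x).1 j := fun v => by
    split_ifs
    · simp [carry_apply_eq_zero hX0, h]
    · simp
  rw [add_sub_assoc, add_sub_assoc] at hww
  have := congrArg (fun z : Val q S => z.1 j) hww
  simp only [Prod.fst_add, Pi.add_apply, hg] at this
  rw [add_right_cancel this] at hww
  exact add_right_cancel hww

end Vale.Agent.P043.Three
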