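import Vale.Agent.P043.Three.Units

/-!
The clause gadget: one of finitely many units is inactive.
-/

open Finset Function

set_option linter.unusedSectionVars false

namespace Vale.Agent.P043.Three

variable {D : Finset U}

/-- The component chosen in a unit of a clause. -/
def pick (e : U → Bool) (d : U) : J := if e d then cB d else cP d

/-- The index shift of a clause. -/
noncomputable def clauseShift (D : Finset U) (e : U → Bool) (w : V) : Idx q :=
  ∑ d : D, if w.1 (pick e (cycleOf D d)) = 0 then 0 else sh (pick e d)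

/-- The equation asserting that some chosen component is invariant. -/
noncomputable def clauseTile (D : Finset U) (e : U → Bool) : Finset Amb :=
  eqTile (fun _ : V => 0) (clauseShift D e) id

variable {a : ℤ × ℤ → Idx q → V}

lemma pick_eq (e : U → Bool) (d : U) : ∃ r : Fin 3, pick e d = Sum.inl (d, r) := by
  cases h : e d <;> simp [pick, h]

lemma sh_pick_other (e : U → Bool) {d d' : U} (h : d ≠ d') (r : Fin 3) :
    sh (pick e d') (Sum.inl (d, r)) = 0 := by
  obtain ⟨r', hr'⟩ := pick_eq e d'
  rw [hr', sh_inl, if_neg (fun hh => h hh.1)]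

lemma clauseShift_apply (e : U → Bool) (w : V) (d : D) (r : Fin 3) :
    clauseShift D e w (Sum.inl (d.1, r)) =
      (if w.1 (pick e (cycleOf D d)) = 0 then 0 else sh (pick e d)) (Sum.inl (d.1, r)) := by
  rw [clauseShift, Finset.sum_apply]
  refine Finset.sum_eq_single d (fun d' _ hne => ?_) (by simp)
  have hne' : (d : U) ≠ d' := fun h => hne (Subtype.ext h.symm)
  split_ifs
  · rfl
  · exact sh_pick_other e hne' r

lemma clauseShift_pick (e : U → Bool) (w : V) (d : D) :
    clauseShift D e w (pick e d) = 0 := by
  obtain ⟨r, hr⟩ := pick_eq e d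
  rw [hr, clauseShift_apply, ← hr]
  split_ifs
  · rfl
  · exact sh_self _

lemma dep_pick (hdep : Dep a) (e : U → Bool) (d : U) (n : ℤ × ℤ) {x y : Idx q}
    (h : ∀ r, x (Sum.inl (d, r)) = y (Sum.inl (d, r))) :
    (a n x).1 (pick e d) = (a n y).1 (pick e d) := by
  obtain ⟨r, hr⟩ := pick_eq e d
  rw [hr]
  exact hdep d r n x y h

lemma clause_sound (hdep : Dep a) (hD : D.Nonempty)
    (h : ∀ e, Tiles (clauseTile D e) (graphOf a)) (n : ℤ × ℤ) :
    ∃ d ∈ D, ¬ Active a d n := by
  classical
  by_contra hcon
  simp only [not_exists, not_and, not_not, Active] at hcon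
  set e : U → Bool := fun d => decide (¬ Inact a (cB d) n)
  have hne : ∀ d : D, ¬ Inact a (pick e d) n := by
    intro d hd
    by_cases hB : Inact a (cB (d : U)) n
    · simp only [pick, e, hB, not_true, decide_false, Bool.false_eq_true, if_false] at hd
      exact hcon d d.2 hd hB
    · simp only [pick, e, hB, not_false_eq_true, decide_true, if_true] at hd
  simp only [Inact, not_forall] at hne
  choose y hy using hne
  set x : Idx q := fun j =>
    match j with
    | Sum.inl (u, r) => if hu : u ∈ D then y ⟨u, hu⟩ (Sum.inl (u, r)) else 0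
    | Sum.inr _ => 0 with hx
  have hxy : ∀ (d : D) r, x (Sum.inl (d.1, r)) = y d (Sum.inl (d.1, r)) := fun d r => by
    simp [hx, d.2]
  set u₁ : Idx q := ∑ d : D, sh (pick e d) with hu₁
  set w : V := a n x - a n (x + u₁) + carry x u₁ with hw
  have hu₁_apply : ∀ (d : D) r, u₁ (Sum.inl (d.1, r)) = sh (pick e d) (Sum.inl (d.1, r)) :=
    fun d r => by
    rw [hu₁, Finset.sum_apply]
    refine Finset.sum_eq_single d (fun d' _ hne => ?_) (by simp)
    exact sh_pick_other e (fun h => hne (Subtype.ext h.symm)) r
  have hw0 : ∀ d : D, w.1 (pick e d) ≠ 0 := by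
    intro d h0
    have hc : u₁ (pick e d) = 0 := by
      obtain ⟨r, hr⟩ := pick_eq e d
      rw [hr, hu₁_apply, ← hr, sh_self]
    simp only [hw, Prod.fst_add, Prod.fst_sub, Pi.add_apply, Pi.sub_apply,
      carry_apply_eq_zero hc, add_zero, sub_eq_zero] at h0
    have e1 : (a n x).1 (pick e d) = (a n (y d)).1 (pick e d) :=
      dep_pick hdep e d n (hxy d)
    have e2 : (a n (x + u₁)).1 (pick e d) = (a n (y d + sh (pick e d))).1 (pick e d) :=
      dep_pick hdep e d n fun r => by rw [Pi.add_apply, Pi.add_apply, hxy, hu₁_apply]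
    exact hy d (by rw [← e1, ← e2]; exact h0.symm)
  have hwu : clauseShift D e w = u₁ := Finset.sum_congr rfl fun d _ => if_neg (hw0 _)
  have h0u : clauseShift D e 0 = 0 := by simp [clauseShift]
  have hb := bijective_of_tiles (fun k i hki => (Prod.mk.inj (Prod.mk.inj hki).2).2) (h e) n x
  have hcov : cov a (fun _ : V => 0) (clauseShift D e) id n x w =
      cov a (fun _ : V => 0) (clauseShift D e) id n x 0 := by
    simp only [cov, id, add_zero, hwu, h0u, carry_zero]
    rw [hw]
    abel
  obtain ⟨d, hd⟩ := hD
  exact hw0 ⟨d, hd⟩ (by rw [hb.1 hcov]; rfl)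

lemma clause_complete (hdep : Dep a) (h : ∀ n, ∃ d ∈ D, ¬ Active a d n) (e : U → Bool) :
    Tiles (clauseTile D e) (graphOf a) := by
  refine tiles_of_bijective fun n x => Finite.injective_iff_bijective.1 fun w w' hww => ?_
  obtain ⟨d₀, hd₀, hact⟩ := h n
  simp only [Active, not_not] at hact
  simp only [cov, id, add_zero] at hww
  have hcomp : ∀ (v : V) (d : D), ((v + a n (x + clauseShift D e v) -
      carry x (clauseShift D e v) : V)).1 (pick e d) = v.1 (pick e d) +
      (a n (x + if v.1 (pick e (cycleOf D d)) = 0 then 0 else sh (pick e d))).1 (pick e d) := by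
    intro v d
    simp only [Prod.fst_add, Prod.fst_sub, Pi.add_apply, Pi.sub_apply,
      carry_apply_eq_zero (clauseShift_pick e v d), sub_zero]
    congr 1
    exact dep_pick hdep e d n fun r => by rw [Pi.add_apply, Pi.add_apply, clauseShift_apply]
  have hstart : ∀ v : V, (a n (x + if v.1 (pick e (cycleOf D ⟨d₀, hd₀⟩)) = 0 then 0
      else sh (pick e d₀))).1 (pick e d₀) = (a n x).1 (pick e d₀) := by
    intro v
    split_ifs
    · rw [add_zero]
    · have hi : Inact a (pick e d₀) n := by
        cases he : e d₀
        · rw [show pick e d₀ = cP d₀ by simp [pick, he]]; exact hact.1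
        · rw [show pick e d₀ = cB d₀ by simp [pick, he]]; exact hact.2
      exact hi x
  have hall : ∀ d : D, w.1 (pick e d) = w'.1 (pick e d) := by
    refine cycleOf_spec (fun d : D => w.1 (pick e d) = w'.1 (pick e d)) (fun d hd => ?_)
      ⟨⟨d₀, hd₀⟩, ?_⟩
    · have := congrArg (fun z : V => z.1 (pick e d)) hww
      simp only [hcomp, hd] at this
      exact add_right_cancel this
    · have := congrArg (fun z : V => z.1 (pick e d₀)) hww
      simp only [hcomp _ ⟨d₀, hd₀⟩, hstart] at this
      exact add_right_cancel this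
  have hs : clauseShift D e w = clauseShift D e w' :=
    Finset.sum_congr rfl fun d _ => by rw [hall]
  rw [hs] at hww
  exact add_right_cancel (sub_left_injective hww)

end Vale.Agent.P043.Three
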