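import Vale.Agent.P043.Three.Units
import Vale.Agent.P043.Board

/-!
The standard solution of the system.
-/

open Finset Function

set_option linter.unusedSectionVars false

namespace Vale.Agent.P043.Three

open Board

instance fact23 : Fact (Nat.Prime 23) := ⟨by norm_num⟩

/-- The class of a line of a seed unit. -/
def rho (n : ℤ × ℤ) : ℕ := (n.2 % 299).toNat

/-- The classes with the first seed active. -/
def IsA (r : ℕ) : Prop := r % 23 = 1 ∧ r / 23 < 11

/-- The classes with the second seed active. -/
def IsB (r : ℕ) : Prop := r % 23 = 2 ∧ r / 23 < 2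

instance (r : ℕ) : Decidable (IsA r) := inferInstanceAs (Decidable (_ ∧ _))

instance (r : ℕ) : Decidable (IsB r) := inferInstanceAs (Decidable (_ ∧ _))

/-- An enumeration of the remaining classes. -/
def other (r : ℕ) : ℕ :=
  if r % 23 = 0 then r / 23
  else if r % 23 = 1 then 262 + r / 23
  else if r % 23 = 2 then 273 + r / 23
  else 13 * (r % 23 - 2) + r / 23

lemma other_lt {r : ℕ} (hr : r < 299) (ha : ¬ IsA r) (hb : ¬ IsB r) : other r < 286 := by
  simp only [IsA, IsB, not_and, not_lt] at ha hb
  unfold other
  split_ifs <;> omega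

lemma other_inj {r r' : ℕ} (hr : r < 299) (hr' : r' < 299) (ha : ¬ IsA r) (hb : ¬ IsB r)
    (ha' : ¬ IsA r') (hb' : ¬ IsB r') (h : other r = other r') : r = r' := by
  simp only [IsA, IsB, not_and, not_lt] at ha hb ha' hb'
  have : r / 23 < 13 := by omega
  have : r' / 23 < 13 := by omega
  unfold other at h
  split_ifs at h <;> omega

lemma isA_inj {r r' : ℕ} (h : IsA r) (h' : IsA r') (e : r / 23 = r' / 23) : r = r' := by
  have := h.1; have := h'.1; omega

lemma isB_inj {r r' : ℕ} (h : IsB r) (h' : IsB r') (e : r / 23 = r' / 23) : r = r' := by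
  have := h.1; have := h'.1; omega

lemma IsA.not_isB {r : ℕ} (h : IsA r) : ¬ IsB r := fun h' => by
  have := h.1; have := h'.1; omega

/-- The offset of the counting component of a seed unit. -/
def offN (b : Bool) (r : ℕ) : ℕ :=
  if IsA r then (if b then r / 23 else 0)
  else if IsB r then (if b then 0 else r / 23)
  else other r % 22

/-- The value of the last component. -/
def slot (r : ℕ) (z : ℤ) : ℕ :=
  if IsA r then (((r / 23 : ℕ) + z) % 11).toNat
  else if IsB r then 11 + (((r / 23 : ℕ) + z) % 2).toNat
  else 13 + 22 * (other r / 22) + (((other r % 22 : ℕ) + z) % 22).toNat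

lemma slot_lt {r : ℕ} (hr : r < 299) (z : ℤ) : slot r z < 299 := by
  unfold slot
  split_ifs with ha hb
  · omega
  · omega
  · have := other_lt hr ha hb
    omega

/-- The units active at a position. -/
def act : U → ℤ × ℤ → Prop
  | Sum.inl (j, v), n =>
    lastDigit 23 (n.1 * ((j : ℕ) : ℤ) + n.2) = (((v : ℕ) + 1 : ℕ) : ZMod 23)
  | Sum.inr false, n => IsA (rho n)
  | Sum.inr true, n => IsB (rho n)

/-- The reading of the coupling by the first component. -/
noncomputable def eMap (u : U) (z : ZMod (q (cC u))) : ZMod (q (cP u)) := ((z.val : ℕ) : ZMod _)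

/-- The start of the window of the second component. -/
noncomputable def start (u : U) : ZMod (q (cC u)) := (q (cC u) + 1 - q (cP u) : ℕ)

/-- The reading of the coupling by the second component. -/
noncomputable def fMap (u : U) (z : ZMod (q (cC u))) : ZMod (q (cB u)) := ((z - start u).val : ℕ)

/-- The index moved along with a position. -/
noncomputable def idx (n : ℤ × ℤ) (x : Idx q) : Idx q := fun i => x i + (n.1 : ZMod (q i))

open scoped Classical in
/-- The standard solution. -/
noncomputable def std (n : ℤ × ℤ) (x : Idx q) : V :=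
  (fun i =>
    match i with
    | Sum.inl (u, 0) =>
      if act u n then eMap u (idx n x (cC u) - ((idx n x (cB u)).val : ℕ)) else 0
    | Sum.inl (u, 1) =>
      if act u n then fMap u (idx n x (cC u) - ((idx n x (cP u)).val : ℕ)) else 0
    | Sum.inl (u, 2) =>
      if act u n then (((idx n x (cP u)).val + (idx n x (cB u)).val : ℕ) : ZMod (q (cC u))) else 0
    | Sum.inr b => ((offN b (rho n) : ℕ) : ZMod (q (cD b))),
    ((slot (rho n) n.1 : ℕ) : ZMod 299))

lemma window (u : U) (z : ZMod (q (cC u))) :
    (∀ m : ZMod (q (cP u)), eMap u (z + (m.val : ℕ)) = (z.val : ℕ) + m) ∨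
    (∀ m : ZMod (q (cB u)), fMap u (z + (m.val : ℕ)) = ((z - start u).val : ℕ) + m) := by
  have hc := coupling_big u
  have hp := (q_prime (cP u)).two_le
  have hb := (q_prime (cB u)).two_le
  have hz := z.val_lt
  by_cases h : z.val + q (cP u) ≤ q (cC u)
  · refine Or.inl fun m => ?_
    have hm := m.val_lt
    have e : (z + ((m.val : ℕ) : ZMod (q (cC u)))).val = z.val + m.val := by
      rw [ZMod.val_add_of_lt] <;> rw [ZMod.val_cast_of_lt (by omega)]
      omega
    rw [eMap, e, Nat.cast_add, ZMod.natCast_zmod_val]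
  · refine Or.inr fun m => ?_
    have hm := m.val_lt
    have hs : (start u).val = q (cC u) + 1 - q (cP u) := ZMod.val_cast_of_lt (by omega)
    have hd : (z - start u).val = z.val - (q (cC u) + 1 - q (cP u)) := by
      rw [ZMod.val_sub (by omega), hs]
    have e : (z + ((m.val : ℕ) : ZMod (q (cC u))) - start u).val = (z - start u).val + m.val := by
      rw [add_sub_right_comm, ZMod.val_add_of_lt] <;> rw [ZMod.val_cast_of_lt (by omega)]
      omega
    rw [fMap, e, Nat.cast_add, ZMod.natCast_zmod_val]

lemma rho_lt (n : ℤ × ℤ) : rho n < 299 := by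
  unfold rho; omega

lemma act_add (u : U) (n : ℤ × ℤ) : act u (n + dir u) ↔ act u n := by
  rcases u with ⟨j, v⟩ | (_ | _)
  · simp only [act, dir, dirCol, Prod.fst_add, Prod.snd_add]
    rw [show (n.1 + 1) * ((j : ℕ) : ℤ) + (n.2 + -((j : ℕ) : ℤ)) = n.1 * ((j : ℕ) : ℤ) + n.2 by
      ring]
  all_goals simp [act, dir, rho]

lemma act_along (u : U) (n : ℤ × ℤ) (i : ℕ) : act u (n + i • dir u) ↔ act u n := by
  induction i with
  | zero => simp
  | succ i ih => rw [succ_nsmul, ← add_assoc, act_add, ih]

lemma dep_std : Dep std := by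
  intro u r n x y h
  have h' : ∀ r', idx n x (Sum.inl (u, r')) = idx n y (Sum.inl (u, r')) := fun r' => by
    simp [idx, h r']
  fin_cases r <;> simp [std, h']

lemma rule_std : Rule std := by
  intro j n x
  rcases j with ⟨u, r⟩ | b
  · have hv : (dir u).1 = 1 := by rcases u with ⟨_, _⟩ | _ <;> rfl
    by_cases h : act u n
    · have h' := (act_add u n).2 h
      fin_cases r <;>
        simp [std, dirJ, h, h', idx, hv, sh_inl, add_assoc, add_comm (1 : ZMod _)]
    · have h' : ¬ act u (n + dir u) := fun c => h ((act_add u n).1 c)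
      fin_cases r <;> simp [std, dirJ, h, h']
  · simp [std, dirJ, rho]

lemma inact_std {u : U} {n : ℤ × ℤ} (h : ¬ act u n) (r : Fin 3) :
    Inact std (Sum.inl (u, r)) n := fun x => by
  fin_cases r <;> simp [std, h]

end Vale.Agent.P043.Three
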