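import Vale.Agent.P043.Three.ColumnDef
import Vale.Agent.P043.Three.Std

/-!
The column gadget.
-/

open Finset Function

set_option linter.unusedSectionVars false

namespace Vale.Agent.P043.Three

variable {a : ℤ × ℤ → Idx q → V} (j : Fin 529)

lemma colV_carrier (w : Idx q) (c : Fin 22 × Bool) :
    colV j w (carrier j c) = bump _ (w (carrier j (nextCar c))) := by
  rcases c with ⟨v, _ | _⟩
  · show colV j w (cP (col j v)) = bump (q (cP (col j v))) (w (carrier j (nextCar (v, false))))
    simp [colV]; rfl
  · show colV j w (cB (col j v)) = bump (q (cB (col j v))) (w (carrier j (nextCar (v, true))))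
    simp [colV]; rfl

lemma colV_coupling (w : Idx q) (v : Fin 22) : colV j w (cC (col j v)) = w (cC (col j v)) := by
  simp [colV]

lemma colT_carrier (w : V) (c : Fin 22 × Bool) :
    (colT j w).1 (carrier j c) =
      w.1 (carrier j c) - bump _ (w.1 (carrier j (nextCar c))) := by
  rcases c with ⟨v, _ | _⟩
  · show (colT j w).1 (cP (col j v)) =
      w.1 (cP (col j v)) - bump (q (cP (col j v))) (w.1 (carrier j (nextCar (v, false))))
    simp [colT]; rfl
  · show (colT j w).1 (cB (col j v)) =
      w.1 (cB (col j v)) - bump (q (cB (col j v))) (w.1 (carrier j (nextCar (v, true))))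
    simp [colT]; rfl

lemma colT_coupling (w : V) (v : Fin 22) :
    (colT j w).1 (cC (col j v)) = -w.1 (cC (col j v)) := by
  simp [colT]

/-- The piece of a value is recovered from its site and its translation. -/
lemma col_piece_inj :
    Injective fun w : V => (site (colV j w.1) • dirCol j, (0 : Idx q), colT j w) := by
  intro w w' h
  simp only [Prod.mk.injEq, true_and] at h
  obtain ⟨hs, ht⟩ := h
  have hi : site (colV j w.1) = site (colV j w'.1) := by
    simpa [dirCol] using congrArg Prod.fst hs
  have hV : colV j w.1 = colV j w'.1 := funext fun i => by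
    rw [← site_spec (colV j w.1) i, hi, site_spec]
  refine Prod.ext (funext fun i => ?_) (by simpa [colT] using congrArg Prod.snd ht)
  have hV := congrFun hV i
  have ht := congrArg (fun z : V => z.1 i) ht
  rcases i with ⟨⟨j', v⟩ | b, r⟩ | b
  · simp only [colT, colV] at ht hV
    split_ifs at ht hV
    · exact hV
    · rw [hV] at ht; exact sub_left_inj.1 ht
    · exact ht
  · simpa [colT] using ht
  · simpa [colT] using ht

lemma cov_col (n : ℤ × ℤ) (x : Idx q) (w : V) :
    cov a (fun w : V => site (colV j w.1) • dirCol j) (fun _ => 0) (colT j) n x w =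
      colT j w + a (n + site (colV j w.1) • dirCol j) x := by
  simp [cov]

/-- Membership of a component in a column. -/
def inCol : J → Bool
  | Sum.inl (Sum.inl (j', _), _) => j' = j
  | _ => false

lemma inCol_carrier (c : Fin 22 × Bool) : inCol j (carrier j c) = true := by
  rcases c with ⟨v, _ | _⟩ <;> simp [inCol, carrier]

lemma colV_congr {w w' : Idx q} (h : ∀ i, inCol j i = true → w i = w' i) :
    colV j w = colV j w' := by
  funext i
  rcases i with ⟨⟨j', v⟩ | b, r⟩ | b
  · simp only [colV]
    split_ifs with h1 h2
    · exact h _ (by simp [inCol, h1])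
    · rw [h _ (inCol_carrier j _)]
    · rfl
  · rfl
  · rfl

variable {j}

/-- If a column gadget tiles a graph, then some unit of the column is active. -/
lemma column_sound (hr : Rule a) (h : Tiles (colTile j) (graphOf a)) (n : ℤ × ℤ) :
    ∃ v, Active a (col j v) n := by
  by_contra hv
  simp only [not_exists, Active, not_not] at hv
  have hinj := (bijective_of_tiles (col_piece_inj j) h n 0).1
  -- the residues prescribed by a value with all carriers one
  set w₁ : Idx q := fun i =>
    if ∃ v, i = cC (col j v) then (a n (sh i)).1 i - (a n 0).1 i else 1 with hw₁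
  set d₀ := n + site (colV j (0 : Idx q)) • dirCol j with hd₀
  set d₁ := n + site (colV j w₁) • dirCol j with hd₁
  set w' : V := (fun i => if inCol j i then w₁ i else (a d₀ 0).1 i - (a d₁ 0).1 i,
    (a d₀ 0).2 - (a d₁ 0).2) with hw'
  have hV : colV j w'.1 = colV j w₁ := colV_congr j fun i hi => by simp [hw', hi]
  have hcar : ∀ c, w₁ (carrier j c) = 1 := fun c => by
    rcases c with ⟨v, _ | _⟩
    · show w₁ (cP (col j v)) = 1
      simp [hw₁]
    · show w₁ (cB (col j v)) = 1
      simp [hw₁]
  have e : cov a (fun w : V => site (colV j w.1) • dirCol j) (fun _ => 0) (colT j) n 0 0 =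
      cov a (fun w : V => site (colV j w.1) • dirCol j) (fun _ => 0) (colT j) n 0 w' := by
    rw [cov_col, cov_col, hV, ← hd₁, show colV j (0 : V).1 = colV j 0 from rfl, ← hd₀]
    refine Prod.ext (funext fun i => ?_) (by simp [hw', colT])
    rcases i with ⟨⟨j', v⟩ | b, r⟩ | b
    rotate_left
    · simp [hw', colT, inCol]
    · simp [hw', colT, inCol]
    by_cases hj : j' = j
    rotate_left
    · simp [hw', colT, inCol, hj]
    subst hj
    have along : ∀ (r : Fin 3) (i : ℕ), (a (n + i • dirCol j') 0).1 (Sum.inl (col j' v, r)) =
        (a n (i • sh (Sum.inl (col j' v, r)))).1 (Sum.inl (col j' v, r)) := fun r i => by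
      have := hr.iter (Sum.inl (col j' v, r)) i n 0
      rwa [zero_add] at this
    have carcase : ∀ c : Fin 22 × Bool, c.1 = v →
        (colT j' 0).1 (carrier j' c) + (a d₀ 0).1 (carrier j' c) =
          (colT j' w').1 (carrier j' c) + (a d₁ 0).1 (carrier j' c) := by
      intro c hc
      rw [colT_carrier, colT_carrier]
      have w'car : ∀ c, w'.1 (carrier j' c) = 1 := fun c => by
        simp [hw', inCol_carrier, hcar]
      rw [w'car, w'car]
      have inv : Inact a (carrier j' c) n := by
        rcases c with ⟨v', _ | _⟩
        · exact (hv v').1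
        · exact (hv v').2
      have hd : dirJ (carrier j' c) = dirCol j' := by
        rcases c with ⟨v', _ | _⟩ <;> rfl
      have e0 := hr.inact_along inv (site (colV j' (0 : Idx q))) 0
      have e1 := hr.inact_along inv (site (colV j' w₁)) 0
      rw [hd] at e0 e1
      rw [hd₀, hd₁, e0, e1]
      simp [bump]
    fin_cases r
    · exact carcase (v, false) rfl
    · exact carcase (v, true) rfl
    show (colT j' 0).1 (cC (col j' v)) + (a d₀ 0).1 (cC (col j' v)) =
      (colT j' w').1 (cC (col j' v)) + (a d₁ 0).1 (cC (col j' v))
    rw [colT_coupling, colT_coupling, hd₀, hd₁, along, along]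
    have bz : ∀ (k : ℕ) (i : J), bump k (0 : ZMod (q i)) = 0 := fun k i => by simp [bump]
    have s0 : site (colV j' (0 : Idx q)) • sh (cC (col j' v)) = 0 := by
      funext i
      rw [Pi.smul_apply, nsmul_eq_mul, site_spec]
      rcases i with ⟨u, r⟩ | b <;> simp [colV, sh, bz]
      rcases u with ⟨j, v⟩ | b <;> simp
    have s1 : site (colV j' w₁) • sh (cC (col j' v)) = sh (cC (col j' v)) := by
      funext i
      rw [Pi.smul_apply, nsmul_eq_mul, site_spec]
      rcases i with ⟨u, r⟩ | b
      · rw [sh_inl]
        split_ifs with h1
        · obtain ⟨rfl, h2⟩ := h1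
          simp [colV, h2, hcar, bump]
        · simp
      · simp [sh_inl_inr]
    rw [s0, s1]
    simp [hw', hw₁, inCol]
  have := congrArg (fun w : V => w.1 (carrier j (0, false))) (hinj e)
  simp [hw', inCol_carrier, hcar] at this

/-- The reading of a carrier, as a function of the covered value and of the bump of its
successor. -/
noncomputable def colG (j : Fin 529) (n : ℤ × ℤ) (x : Idx q) (W : V) :
    (c : Fin 22 × Bool) → Bool → ZMod (q (carrier j c))
  | (v, false), s =>
    open scoped Classical in
    if act (col j v) n then
      eMap (col j v) ((idx n x (cC (col j v)) - W.1 (cC (col j v))) +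
        (((idx n x (cP (col j v)) + if s then 1 else 0).val : ℕ) : ZMod (q (cC (col j v)))))
    else 0
  | (v, true), s =>
    open scoped Classical in
    if act (col j v) n then
      fMap (col j v) ((idx n x (cC (col j v)) - W.1 (cC (col j v))) +
        (((idx n x (cB (col j v)) + if s then 1 else 0).val : ℕ) : ZMod (q (cC (col j v)))))
    else 0

lemma idx_move (j : Fin 529) (n : ℤ × ℤ) (x : Idx q) (k : Idx q) (i : J) :
    idx (n + site k • dirCol j) x i = idx n x i + k i := by
  simp [idx, dirCol, site_spec, add_assoc]

open scoped Classical in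
lemma std_coupling (j : Fin 529) (n : ℤ × ℤ) (x : Idx q) (w : V) (v : Fin 22) :
    (std (n + site (colV j w.1) • dirCol j) x).1 (cC (col j v)) =
      if act (col j v) n then
        (((idx n x (cP (col j v)) + colV j w.1 (cP (col j v))).val +
          (idx n x (cB (col j v)) + colV j w.1 (cB (col j v))).val : ℕ) : ZMod (q (cC (col j v))))
      else 0 := by
  have ha : act (col j v) (n + site (colV j w.1) • dirCol j) ↔ act (col j v) n :=
    act_along (col j v) n _
  simp only [std, ha, idx_move]

open scoped Classical in
lemma cycle_eq (j : Fin 529) (n : ℤ × ℤ) (x : Idx q) (w : V) (W : V)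
    (hW : colT j w + std (n + site (colV j w.1) • dirCol j) x = W) (c : Fin 22 × Bool) :
    w.1 (carrier j c) - bump _ (w.1 (carrier j (nextCar c))) +
      colG j n x W c (decide (w.1 (carrier j (nextCar c)) = 1)) = W.1 (carrier j c) := by
  have hb : ∀ (k : ℕ) (i : J) (z : ZMod (q i)),
      (if decide (z = 1) then 1 else 0 : ZMod k) = bump k z := fun k i z => by simp [bump]
  have hc : (colT j w).1 (carrier j c) +
      (std (n + site (colV j w.1) • dirCol j) x).1 (carrier j c) = W.1 (carrier j c) := by
    rw [← hW]; rfl
  rw [colT_carrier] at hc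
  refine Eq.trans ?_ hc
  congr 1
  rcases c with ⟨v, _ | _⟩
  · have hC := std_coupling j n x w v
    have hWC : W.1 (cC (col j v)) = -w.1 (cC (col j v)) +
        (std (n + site (colV j w.1) • dirCol j) x).1 (cC (col j v)) := by
      rw [← hW, ← colT_coupling]; rfl
    have ha : act (col j v) (n + site (colV j w.1) • dirCol j) ↔ act (col j v) n :=
      act_along (col j v) n _
    show colG j n x W (v, false) _ =
      (std (n + site (colV j w.1) • dirCol j) x).1 (cP (col j v))
    by_cases h : act (col j v) n
    · simp only [colG, std, ha, h, if_true, idx_move, hb]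
      rw [hWC, hC, if_pos h, colV_coupling]
      have : colV j w.1 (cP (col j v)) =
          bump (q (cP (col j v))) (w.1 (carrier j (nextCar (v, false)))) :=
        colV_carrier j w.1 (v, false)
      rw [this]
      push_cast
      congr 1
      ring1
    · simp only [colG, std, ha]
      rw [if_neg h]
      exact if_neg h
  · have hC := std_coupling j n x w v
    have hWC : W.1 (cC (col j v)) = -w.1 (cC (col j v)) +
        (std (n + site (colV j w.1) • dirCol j) x).1 (cC (col j v)) := by
      rw [← hW, ← colT_coupling]; rfl
    have ha : act (col j v) (n + site (colV j w.1) • dirCol j) ↔ act (col j v) n :=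
      act_along (col j v) n _
    show colG j n x W (v, true) _ =
      (std (n + site (colV j w.1) • dirCol j) x).1 (cB (col j v))
    by_cases h : act (col j v) n
    · simp only [colG, std, ha, h, if_true, idx_move, hb]
      rw [hWC, hC, if_pos h, colV_coupling]
      have : colV j w.1 (cB (col j v)) =
          bump (q (cB (col j v))) (w.1 (carrier j (nextCar (v, true)))) :=
        colV_carrier j w.1 (v, true)
      rw [this]
      push_cast
      congr 1
      ring1
    · simp only [colG, std, ha]
      rw [if_neg h]
      exact if_neg h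

lemma exists_act (j : Fin 529) (n : ℤ × ℤ) : ∃ v, act (col j v) n := by
  have h := Board.lastDigit_ne_zero (p := 23) (n.1 * ((j : ℕ) : ℤ) + n.2)
  set d := Board.lastDigit 23 (n.1 * ((j : ℕ) : ℤ) + n.2) with hd
  have h0 : d.val ≠ 0 := fun e => h ((ZMod.val_eq_zero d).1 e)
  have := d.val_lt
  refine ⟨⟨d.val - 1, by omega⟩, ?_⟩
  show d = _
  rw [show d.val - 1 + 1 = d.val by omega, ZMod.natCast_zmod_val]

lemma exists_good (j : Fin 529) (n : ℤ × ℤ) (x : Idx q) (W : V) :
    ∃ (c : Fin 22 × Bool) (z : ZMod (q (carrier j c))),
      ∀ s : Bool, colG j n x W c s = z + (if s then 1 else 0) := by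
  obtain ⟨v, hv⟩ := exists_act j n
  rcases window (col j v) (idx n x (cC (col j v)) - W.1 (cC (col j v))) with hw | hw
  · refine ⟨(v, false), (((idx n x (cC (col j v)) - W.1 (cC (col j v))).val : ℕ) :
      ZMod (q (cP (col j v)))) + idx n x (cP (col j v)), fun s => ?_⟩
    simp only [colG]
    refine (if_pos hv).trans ?_
    rw [hw, ← add_assoc]
    rfl
  · refine ⟨(v, true),
      (((idx n x (cC (col j v)) - W.1 (cC (col j v)) - start (col j v)).val : ℕ) :
      ZMod (q (cB (col j v)))) + idx n x (cB (col j v)), fun s => ?_⟩
    simp only [colG]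
    refine (if_pos hv).trans ?_
    rw [hw, ← add_assoc]
    rfl

/-- The standard solution is tiled by every column gadget. -/
lemma column_complete (j : Fin 529) : Tiles (colTile j) (graphOf std) := by
  refine tiles_of_bijective fun n x => Finite.injective_iff_bijective.1 fun w w' e => ?_
  rw [cov_col, cov_col] at e
  obtain ⟨c₀, z, hgood⟩ := exists_good j n x (colT j w + std (n + site (colV j w.1) • dirCol j) x)
  have hr : (fun c => w.1 (carrier j c)) = fun c => w'.1 (carrier j c) :=
    cycle_inj (m := fun c => q (carrier j c)) (next := nextCar) cycleOf_spec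
      (colG j n x (colT j w + std (n + site (colV j w.1) • dirCol j) x)) hgood
      (fun c => (cycle_eq j n x w _ rfl c).trans (cycle_eq j n x w' _ e.symm c).symm)
  have hV : colV j w.1 = colV j w'.1 := by
    refine colV_congr j fun i hi => ?_
    rcases i with ⟨⟨j', v⟩ | b, r⟩ | b <;> simp [inCol] at hi
    subst hi
    fin_cases r
    · exact congrFun hr (v, false)
    · exact congrFun hr (v, true)
    have := congrArg (fun z : V => z.1 (cC (col j' v))) e
    simp only [Prod.fst_add, Pi.add_apply, colT_coupling] at this
    have e1 := colV_carrier j' w.1 (v, false)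
    have e2 := colV_carrier j' w.1 (v, true)
    have e1' := colV_carrier j' w'.1 (v, false)
    have e2' := colV_carrier j' w'.1 (v, true)
    rw [congrFun hr (nextCar (v, false))] at e1
    rw [congrFun hr (nextCar (v, true))] at e2
    change colV j' w.1 (cP (col j' v)) = _ at e1
    change colV j' w.1 (cB (col j' v)) = _ at e2
    change colV j' w'.1 (cP (col j' v)) = _ at e1'
    change colV j' w'.1 (cB (col j' v)) = _ at e2'
    rw [std_coupling, std_coupling, e1, e2, e1', e2'] at this
    exact neg_injective (add_right_cancel this)
  refine col_piece_inj j ?_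
  rw [hV] at e
  simp only [hV, add_right_cancel e]

end Vale.Agent.P043.Three
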