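import Vale.Agent.P043.Three.Units

/-!
The column gadget: the carriers are the first two components of the units of one column.
-/

open Finset Function

set_option linter.unusedSectionVars false

namespace Vale.Agent.P043.Three

/-- The successor of a carrier in the column cycle. -/
noncomputable def nextCar (c : Fin 22 × Bool) : Fin 22 × Bool := cycleOf (Fin 22 × Bool) c

/-- A carrier as a component. -/
def carrier (j : Fin 529) (c : Fin 22 × Bool) : J := if c.2 then cB (col j c.1) else cP (col j c.1)

/-- The prescribed residues of the sites of a column gadget. -/
noncomputable def colV (j : Fin 529) (w : Idx q) : Idx q := fun i =>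
  match i with
  | Sum.inl (Sum.inl (j', v), r) =>
    if j' = j then
      (if r = 2 then w (Sum.inl (Sum.inl (j', v), r))
        else bump _ (w (carrier j (nextCar (v, decide (r = 1))))))
    else 0
  | _ => 0

/-- The translations of a column gadget. -/
noncomputable def colT (j : Fin 529) (w : V) : V :=
  (fun i =>
    match i with
    | Sum.inl (Sum.inl (j', v), r) =>
      if j' = j then
        (if r = 2 then -w.1 (Sum.inl (Sum.inl (j', v), r))
          else w.1 (Sum.inl (Sum.inl (j', v), r)) -
            bump _ (w.1 (carrier j (nextCar (v, decide (r = 1))))))
      else w.1 (Sum.inl (Sum.inl (j', v), r))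
    | i => w.1 i, w.2)

/-- The equation asserting that some unit of a column is active. -/
noncomputable def colTile (j : Fin 529) : Finset Amb :=
  eqTile (fun w : V => site (colV j w.1) • dirCol j) (fun _ => 0) (colT j)

end Vale.Agent.P043.Three
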