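import Mathlib

/-!
Counting the solutions of a cycle of three residue differences, and the counting obstruction of a
window of offsets.
-/

open Finset Function

namespace Vale.Agent.P043.Three

/-- One, if the flag is set. -/
def flag {m : ℕ} (s : Bool) : ZMod m := if s then 1 else 0

/-- The sign of a prescribed difference: one at zero, minus one at one. -/
def sign3 {m : ℕ} (T : ZMod m) : ℤ := (if T = 0 then 1 else 0) - (if T = 1 then 1 else 0)

/-- The flag of a residue with prescribed difference, given the next flag. -/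
def step3 {m : ℕ} (T : ZMod m) (s : Bool) : Bool := decide (T + flag s = 1)

lemma step3_cases {m : ℕ} [Nontrivial (ZMod m)] (T : ZMod m) :
    (sign3 T = 1 ∧ ∀ s, step3 T s = s) ∨ (sign3 T = -1 ∧ ∀ s, step3 T s = !s) ∨
      (sign3 T = 0 ∧ ∀ s, step3 T s = false) := by
  have h01 : (0 : ZMod m) ≠ 1 := zero_ne_one
  by_cases h0 : T = 0
  · subst h0
    exact Or.inl ⟨by simp [sign3, h01], fun s => by cases s <;> simp [step3, flag, h01]⟩
  by_cases h1 : T = 1
  · subst h1
    exact Or.inr (Or.inl ⟨by simp [sign3],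
      fun s => by cases s <;> simp [step3, flag]⟩)
  refine Or.inr (Or.inr ⟨by simp [sign3, h0, h1], fun s => ?_⟩)
  cases s <;> simp [step3, flag, h0, h1]

section Count

variable {p b d : ℕ} [NeZero p] [NeZero b] [NeZero d] [Nontrivial (ZMod p)] [Nontrivial (ZMod b)]
  [Nontrivial (ZMod d)]

/-- The differences along the cycle. -/
def tau3 (t : ZMod p × ZMod b × ZMod d) : ZMod p × ZMod b × ZMod d :=
  (t.1 - flag (decide (t.2.1 = 1)), t.2.1 - flag (decide (t.2.2 = 1)),
    t.2.2 - flag (decide (t.1 = 1)))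

lemma tau3_count (W : ZMod p × ZMod b × ZMod d) :
    ∑ t, (if tau3 t = W then (1 : ℤ) else 0) = 1 + sign3 W.1 * sign3 W.2.1 * sign3 W.2.2 := by
  obtain ⟨W₁, W₂, W₃⟩ := W
  set F : Bool → Bool := fun s => step3 W₁ (step3 W₂ (step3 W₃ s)) with hF
  have e1 : ∑ t, (if tau3 t = ((W₁, W₂, W₃) : ZMod p × ZMod b × ZMod d) then (1 : ℤ) else 0) =
      ∑ s : Bool, if F s = s then (1 : ℤ) else 0 := by
    rw [← sum_filter, ← sum_filter]
    refine sum_nbij' (fun t => decide (t.1 = 1))
      (fun s => (W₁ + flag (step3 W₂ (step3 W₃ s)), W₂ + flag (step3 W₃ s), W₃ + flag s))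
      ?_ ?_ ?_ ?_ ?_
    · rintro ⟨x, y, z⟩ h
      simp only [mem_filter, mem_univ, true_and, tau3, Prod.mk.injEq,
        sub_eq_iff_eq_add] at h ⊢
      obtain ⟨h1, h2, h3⟩ := h
      have e3 : step3 W₃ (decide (x = 1)) = decide (z = 1) := congrArg (fun a => decide (a = 1)) h3.symm
      have e2 : step3 W₂ (decide (z = 1)) = decide (y = 1) := congrArg (fun a => decide (a = 1)) h2.symm
      have e1 : step3 W₁ (decide (y = 1)) = decide (x = 1) := congrArg (fun a => decide (a = 1)) h1.symm
      rw [hF]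
      show step3 W₁ (step3 W₂ (step3 W₃ (decide (x = 1)))) = decide (x = 1)
      rw [e3, e2, e1]
    · intro s h
      simp only [mem_filter, mem_univ, true_and, tau3, Prod.mk.injEq, hF] at h ⊢
      refine ⟨?_, ?_, ?_⟩
      · exact add_sub_cancel_right W₁ _
      · exact add_sub_cancel_right W₂ _
      · have : decide (W₁ + flag (step3 W₂ (step3 W₃ s)) = 1) = s := h
        rw [this, add_sub_cancel_right]
    · rintro ⟨x, y, z⟩ h
      simp only [mem_filter, mem_univ, true_and, tau3, Prod.mk.injEq,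
        sub_eq_iff_eq_add] at h
      obtain ⟨h1, h2, h3⟩ := h
      have e3 : step3 W₃ (decide (x = 1)) = decide (z = 1) := congrArg (fun a => decide (a = 1)) h3.symm
      have e2 : step3 W₂ (decide (z = 1)) = decide (y = 1) := congrArg (fun a => decide (a = 1)) h2.symm
      have e1 : step3 W₁ (decide (y = 1)) = decide (x = 1) := congrArg (fun a => decide (a = 1)) h1.symm
      rw [e3, e2]
      exact Prod.ext h1.symm (Prod.ext h2.symm h3.symm)
    · intro s h
      simp only [mem_filter, mem_univ, true_and, hF] at h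
      exact h
    · intro _ _
      rfl
  rw [e1, Fintype.sum_bool]
  simp only [hF]
  rcases step3_cases W₁ with ⟨a1, b1⟩ | ⟨a1, b1⟩ | ⟨a1, b1⟩ <;>
    rcases step3_cases W₂ with ⟨a2, b2⟩ | ⟨a2, b2⟩ | ⟨a2, b2⟩ <;>
      rcases step3_cases W₃ with ⟨a3, b3⟩ | ⟨a3, b3⟩ | ⟨a3, b3⟩ <;>
        simp [a1, a2, a3, b1, b2, b3]

end Count

lemma sign3_sub {m : ℕ} (W c : ZMod m) :
    sign3 (W - c) = (if c = W then 1 else 0) - (if c = W - 1 then 1 else 0) := by
  have h0 : W - c = 0 ↔ c = W := by rw [sub_eq_zero, eq_comm]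
  have h1 : W - c = 1 ↔ c = W - 1 := by
    constructor <;> intro h <;> linear_combination -h
  simp only [sign3, h0, h1]

lemma const_of_step {m : ℕ} [NeZero m] {f : ZMod m → ℤ} (h : ∀ z, f z = f (z - 1))
    (z w : ZMod m) : f z = f w := by
  have key : ∀ k : ℕ, f (k : ZMod m) = f 0 := by
    intro k
    induction k with
    | zero => simp
    | succ k ih => rw [h, Nat.cast_succ, add_sub_cancel_right, ih]
  rw [← ZMod.natCast_zmod_val z, ← ZMod.natCast_zmod_val w, key, key]

lemma exists_not_hit {L m : ℕ} [NeZero m] (hL : L < m) (c : Fin L → ZMod m) :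
    ∃ z, ∀ o, c o ≠ z := by
  by_contra h
  push Not at h
  have := Fintype.card_le_of_surjective c h
  rw [ZMod.card, Fintype.card_fin] at this
  omega

/-- A window with fewer offsets than two of the moduli has no vanishing sign sums unless the third
modulus divides its length. -/
lemma dvd_of_sign_sums {p b d L : ℕ} [NeZero p] [NeZero b] [NeZero d] (hp : L < p) (hb : L < b)
    (c : Fin L → ZMod p × ZMod b × ZMod d)
    (h : ∀ W : ZMod p × ZMod b × ZMod d,
      ∑ o, sign3 (W.1 - (c o).1) * sign3 (W.2.1 - (c o).2.1) * sign3 (W.2.2 - (c o).2.2) = 0) :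
    d ∣ L := by
  obtain ⟨z₁, hz₁⟩ := exists_not_hit hp fun o => (c o).1
  obtain ⟨z₂, hz₂⟩ := exists_not_hit hb fun o => (c o).2.1
  have s1 : ∀ x y z, ∑ o, (if (c o).1 = x then (1 : ℤ) else 0) * sign3 (y - (c o).2.1) *
      sign3 (z - (c o).2.2) = 0 := by
    intro x y z
    refine (const_of_step (f := fun x => ∑ o, (if (c o).1 = x then (1 : ℤ) else 0) *
      sign3 (y - (c o).2.1) * sign3 (z - (c o).2.2)) (fun x => ?_) x z₁).trans ?_
    · have := h (x, y, z)
      simp only [sign3_sub x, sub_mul, sum_sub_distrib] at this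
      exact sub_eq_zero.1 this
    · simp [hz₁]
  have s2 : ∀ x y z, ∑ o, (if (c o).1 = x then (1 : ℤ) else 0) *
      (if (c o).2.1 = y then (1 : ℤ) else 0) * sign3 (z - (c o).2.2) = 0 := by
    intro x y z
    refine (const_of_step (f := fun y => ∑ o, (if (c o).1 = x then (1 : ℤ) else 0) *
      (if (c o).2.1 = y then (1 : ℤ) else 0) * sign3 (z - (c o).2.2)) (fun y => ?_) y z₂).trans ?_
    · have := s1 x y z
      simp only [sign3_sub y, sub_mul, mul_sub, sum_sub_distrib] at this
      exact sub_eq_zero.1 this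
    · simp [hz₂]
  have s3 : ∀ x y z, ∑ o, (if c o = (x, y, z) then (1 : ℤ) else 0) =
      ∑ o, (if c o = (x, y, 0) then (1 : ℤ) else 0) := by
    intro x y z
    have e : ∀ z o, (if c o = (x, y, z) then (1 : ℤ) else 0) = (if (c o).1 = x then 1 else 0) *
        (if (c o).2.1 = y then 1 else 0) * (if (c o).2.2 = z then 1 else 0) := fun z o => by
      by_cases h1 : (c o).1 = x <;> by_cases h2 : (c o).2.1 = y <;>
        by_cases h3 : (c o).2.2 = z <;> simp [Prod.ext_iff, h1, h2, h3]
    refine const_of_step (f := fun z => ∑ o, (if c o = (x, y, z) then (1 : ℤ) else 0))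
      (fun z => ?_) z 0
    have := s2 x y z
    simp only [sign3_sub z, mul_sub, sum_sub_distrib] at this
    rw [sum_congr rfl fun o _ => e z o, sum_congr rfl fun o _ => e (z - 1) o]
    exact sub_eq_zero.1 this
  have tot : (L : ℤ) = ∑ t : ZMod p × ZMod b × ZMod d, ∑ o, (if c o = t then (1 : ℤ) else 0) := by
    rw [sum_comm]
    simp
  rw [← Int.natCast_dvd_natCast, tot, Fintype.sum_prod_type]
  refine dvd_sum fun x _ => ?_
  rw [Fintype.sum_prod_type]
  refine dvd_sum fun y _ => ?_
  rw [sum_congr rfl fun z _ => s3 x y z, sum_const, card_univ, ZMod.card, nsmul_eq_mul]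
  exact Dvd.intro _ rfl

end Vale.Agent.P043.Three
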