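import Vale.Agent.P043.Three.CounterDef
import Vale.Agent.P043.Three.Fibre

/-!
Soundness of the counter.
-/

open Finset Function

set_option linter.unusedSectionVars false

namespace Vale.Agent.P043.Three

variable {a : ℤ × ℤ → Idx q → V}

/-- The three counted components of a seed unit. -/
abbrev Tri (b : Bool) :=
  ZMod (q (cP (Sum.inr b))) × ZMod (q (cB (Sum.inr b))) × ZMod (q (cD b))

/-- The projection to the counted components. -/
def tri (b : Bool) (w : Idx q) : Tri b := (w (cP (Sum.inr b)), w (cB (Sum.inr b)), w (cD b))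

lemma tri_surj (b : Bool) (t : Tri b) : ∃ w, tri b w = t := by
  obtain ⟨x, y, z⟩ := t
  refine ⟨Pi.single (cP (Sum.inr b)) x + Pi.single (cB (Sum.inr b)) y + Pi.single (cD b) z, ?_⟩
  simp [tri]

set_option linter.constructorNameAsVariable false in
lemma sum_tri (b : Bool) : ∃ M : ℤ, 0 < M ∧
    ∀ ψ : Tri b → ℤ, ∑ w, ψ (tri b w) = M * ∑ t, ψ t := by
  classical
  refine ⟨((univ.filter fun w => tri b w = 0).card : ℕ), ?_, fun ψ => ?_⟩
  · exact_mod_cast card_pos.2 ⟨0, by simp [tri]⟩
  rw [← sum_fiberwise' univ (tri b) ψ, mul_sum]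
  refine sum_congr rfl fun t _ => ?_
  rw [sum_const, nsmul_eq_mul]
  refine congrArg (fun m : ℕ => (m : ℤ) * ψ t) ?_
  obtain ⟨w₀, hw₀⟩ := tri_surj b t
  refine card_nbij' (fun w => w - w₀) (fun w => w + w₀) ?_ ?_ ?_ ?_
  · intro w hw
    simp only [mem_coe, mem_filter, mem_univ, true_and] at hw ⊢
    show tri b w - tri b w₀ = 0
    rw [hw, hw₀, sub_self]
  · intro w hw
    simp only [mem_coe, mem_filter, mem_univ, true_and] at hw ⊢
    show tri b w + tri b w₀ = t
    rw [hw, hw₀, zero_add]
  · intro w _; exact sub_add_cancel w w₀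
  · intro w _; exact add_sub_cancel_right w w₀

lemma cnt_inj (b : Bool) : Injective fun k : Fin 299 × Idx q =>
    ((((site (cntV b k.2) : ℕ) : ℤ), ((k.1 : ℕ) : ℤ)), (0 : Idx q), ((cntT b k.2, 0) : V)) := by
  rintro ⟨o, w⟩ ⟨o', w'⟩ h
  simp only [Prod.mk.injEq, Nat.cast_inj, true_and, and_true] at h
  obtain ⟨⟨hs, ho⟩, ht⟩ := h
  have hv : cntV b w = cntV b w' := funext fun j => by rw [← site_spec (cntV b w) j, hs, site_spec]
  have hD : w (cD b) = w' (cD b) := by
    have e1 := congrFun ht (cD b)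
    have e2 := congrFun hv (cD b)
    simp only [cntT, cntV, if_true] at e1 e2
    linear_combination e2 - e1
  have hB : w (cB (Sum.inr b)) = w' (cB (Sum.inr b)) := by
    have := congrFun ht (cB (Sum.inr b))
    simpa [cntT, hD] using this
  have hP : w (cP (Sum.inr b)) = w' (cP (Sum.inr b)) := by
    have := congrFun ht (cP (Sum.inr b))
    simpa [cntT, hB] using this
  refine Prod.ext (Fin.ext ho) (funext fun j => ?_)
  have e := congrFun ht j
  rcases j with ⟨c | b', r⟩ | b'
  · simpa [cntT] using e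
  · by_cases hb : b' = b
    · subst hb
      fin_cases r
      · exact hP
      · exact hB
      · simpa [cntT] using e
    · simpa [cntT, hb] using e
  · by_cases hb : b' = b
    · subst hb; exact hD
    · simpa [cntT, hb] using e

lemma counter_sound (hr : Rule a) {b : Bool} (h : Tiles (cntTile b) (graphOf a)) (n : ℤ × ℤ) :
    ∃ o : Fin 299, Active a (Sum.inr b) (n + ((0 : ℤ), ((o : ℕ) : ℤ))) := by
  classical
  by_contra hcon
  simp only [not_exists, Active, not_not] at hcon
  set c : Fin 299 → Tri b := fun o => tri b (a (n + ((0 : ℤ), ((o : ℕ) : ℤ))) 0).1 with hc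
  have hb := bijective_of_tiles (cnt_inj b) h n 0
  set sN : Fin 299 × Idx q → ℤ × ℤ :=
    fun k => (((site (cntV b k.2) : ℕ) : ℤ), ((k.1 : ℕ) : ℤ)) with hsN
  have hcov : ∀ k, tri b (cov a sN (fun _ => 0) (fun k => (cntT b k.2, 0)) n 0 k).1 =
      tau3 (tri b k.2) + c k.1 := by
    rintro ⟨o, w⟩
    have epos : n + sN (o, w) =
        n + ((0 : ℤ), ((o : ℕ) : ℤ)) + site (cntV b w) • ((1 : ℤ), (0 : ℤ)) := by
      ext <;> simp [hsN]
    have e1 := hr.inact_along (hcon o).1 (site (cntV b w)) 0
    have e2 := hr.inact_along (hcon o).2 (site (cntV b w)) 0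
    have e3 := hr.const_inr b (n + ((0 : ℤ), ((o : ℕ) : ℤ))) (site (cntV b w)) 0
    simp only [dirJ, dir] at e1 e2
    simp only [tri, cov, epos, add_zero, carry_zero, sub_zero, Prod.fst_add, Pi.add_apply, e1, e2,
      e3, hc, tau3, Prod.mk_add_mk]
    refine Prod.ext ?_ (Prod.ext ?_ ?_) <;>
      simp only [cntT, flag, bump] <;> split_ifs <;> simp_all
  obtain ⟨M, hM, hsum⟩ := sum_tri b
  have key : ∀ W : Tri b, ∑ o, ∑ t, (if tau3 t + c o = W then (1 : ℤ) else 0) = 299 := by
    intro W
    have e : ∑ k : Fin 299 × Idx q, (if tau3 (tri b k.2) + c k.1 = W then (1 : ℤ) else 0) =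
        ∑ z : V, (if tri b z.1 = W then (1 : ℤ) else 0) :=
      Fintype.sum_bijective _ hb _ _ fun k => by rw [← hcov]
    rw [Fintype.sum_prod_type, Fintype.sum_prod_type_right,
      sum_congr rfl fun o _ => hsum fun t => if tau3 t + c o = W then 1 else 0, ← mul_sum,
      sum_congr rfl fun z _ => hsum fun t => if t = W then 1 else 0] at e
    simp only [sum_ite_eq', mem_univ, if_true, mul_one, sum_const, card_univ, ZMod.card,
      nsmul_eq_mul] at e
    refine mul_left_cancel₀ hM.ne' ?_
    rw [e]; push_cast; ring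
  have hq : q (cD b) ∣ 299 := by
    refine dvd_of_sign_sums (lt_trans (by norm_num) (q_inl_big (Sum.inr b) 0))
      (lt_trans (by norm_num) (q_inl_big (Sum.inr b) 1)) c fun W => ?_
    have := key W
    rw [sum_congr rfl fun o _ => (sum_congr rfl fun t _ =>
      if_congr (eq_sub_iff_add_eq (a := tau3 t) (b := W) (c := c o)).symm rfl rfl).trans
        (tau3_count (W - c o))] at this
    rw [sum_add_distrib, sum_const, card_univ, Fintype.card_fin, nsmul_eq_mul, mul_one] at this
    simpa using this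
  exact (q_prime (cD b)).coprime_iff_not_dvd.1 (coprime_299 (cD b)) hq

end Vale.Agent.P043.Three
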