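import Vale.Agent.P043.Three.Units

/-!
The counter of a seed unit.
-/

open Finset Function

set_option linter.unusedSectionVars false

namespace Vale.Agent.P043.Three

/-- The prescribed residues of the sites of a counter. -/
noncomputable def cntV (b : Bool) (w : Idx q) : Idx q := fun i =>
  match i with
  | Sum.inl (Sum.inr b', r) =>
    if b' = b then
      (if r = 0 then bump _ (w (cB (Sum.inr b)))
        else if r = 1 then bump _ (w (cD b)) else w (Sum.inl (Sum.inr b', r)))
    else 0
  | Sum.inl (Sum.inl _, _) => 0
  | Sum.inr b' =>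
    if b' = b then 2 * w (Sum.inr b') - bump _ (w (cP (Sum.inr b))) else 0

/-- The translations of a counter. -/
noncomputable def cntT (b : Bool) (w : Idx q) : Idx q := fun i =>
  match i with
  | Sum.inl (Sum.inr b', r) =>
    if b' = b then
      (if r = 0 then w (Sum.inl (Sum.inr b', r)) - bump _ (w (cB (Sum.inr b)))
        else if r = 1 then w (Sum.inl (Sum.inr b', r)) - bump _ (w (cD b))
        else -w (Sum.inl (Sum.inr b', r)))
    else w (Sum.inl (Sum.inr b', r))
  | Sum.inl (Sum.inl c, r) => w (Sum.inl (Sum.inl c, r))
  | Sum.inr b' =>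
    if b' = b then w (Sum.inr b') - bump _ (w (cP (Sum.inr b))) else w (Sum.inr b')

/-- The equation asserting that a seed unit is active in each window. -/
noncomputable def cntTile (b : Bool) : Finset Amb :=
  eqTile (fun k : Fin 299 × Idx q => (((site (cntV b k.2) : ℕ) : ℤ), ((k.1 : ℕ) : ℤ)))
    (fun _ => 0) (fun k => (cntT b k.2, 0))

end Vale.Agent.P043.Three
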