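import Vale.Agent.P043.Three.CounterDef
import Vale.Agent.P043.Three.Std

/-!
The counter on the standard solution.
-/

open Finset Function

set_option linter.unusedSectionVars false

namespace Vale.Agent.P043.Three

lemma slot_eq {r r' : ℕ} {z z' : ℤ} (h : slot r z = slot r' z') :
    (IsA r ↔ IsA r') ∧ (IsB r ↔ IsB r') ∧
    (IsA r → (((r / 23 : ℕ) : ℤ) + z) % 11 = (((r' / 23 : ℕ) : ℤ) + z') % 11) ∧
    (IsB r → (((r / 23 : ℕ) : ℤ) + z) % 2 = (((r' / 23 : ℕ) : ℤ) + z') % 2) ∧
    (¬ IsA r → ¬ IsB r → other r / 22 = other r' / 22 ∧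
      (((other r % 22 : ℕ) : ℤ) + z) % 22 = (((other r' % 22 : ℕ) : ℤ) + z') % 22) := by
  unfold slot at h
  have h1 := @IsA.not_isB r
  have h2 := @IsA.not_isB r'
  generalize other r = o at *
  generalize other r' = o' at *
  split_ifs at h <;> simp_all <;> omega

/-- Outside the classes where a seed is active, the offset of its counting component and a site
determine the last component modulo the counting prime. -/
lemma slot_off {b : Bool} {r r' : ℕ} {z z' : ℤ} (h : slot r z = slot r' z')
    (hin : ¬ if b then IsB r else IsA r) :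
    (((offN b r : ℕ) : ℤ) + z : ℤ) % (q (cD b) : ℤ) =
      (((offN b r' : ℕ) : ℤ) + z') % (q (cD b) : ℤ) := by
  obtain ⟨hA, hB, h1, h2, h3⟩ := slot_eq h
  have n1 := @IsA.not_isB r
  cases b <;> simp only [q_inr, offN, Bool.false_eq_true, if_false, if_true] at hin ⊢ <;>
    split_ifs <;> simp_all <;> omega

/-- The offset and the last component determine the class. -/
lemma class_eq {b : Bool} {r r' : ℕ} (hr : r < 299) (hr' : r' < 299) {z z' : ℤ}
    (h : slot r z = slot r' z') (hz : z % (q (cD !b) : ℤ) = z' % (q (cD !b) : ℤ))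
    (hoff : (if b then IsB r else IsA r) ∨
      offN b r % q (cD b) = offN b r' % q (cD b)) : r = r' := by
  obtain ⟨hA, hB, h1, h2, h3⟩ := slot_eq h
  by_cases a : IsA r
  · refine isA_inj a (hA.1 a) ?_
    have := h1 a
    have := a.2
    have := (hA.1 a).2
    cases b <;> simp [q_inr, offN, a, hA.1 a, a.not_isB] at hz hoff <;> omega
  by_cases c : IsB r
  · refine isB_inj c (hB.1 c) ?_
    have := h2 c
    have := c.2
    have := (hB.1 c).2
    cases b <;> simp [q_inr, offN, a, c, (not_congr hA).1 a, hB.1 c] at hz hoff <;> omega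
  refine other_inj hr hr' a c ((not_congr hA).1 a) ((not_congr hB).1 c) ?_
  obtain ⟨e1, e2⟩ := h3 a c
  cases b <;> simp [q_inr, offN, a, c, (not_congr hA).1 a, (not_congr hB).1 c] at hz hoff <;> omega

lemma act_seed (b : Bool) (n : ℤ × ℤ) :
    act (Sum.inr b) n ↔ if b then IsB (rho n) else IsA (rho n) := by
  cases b <;> simp [act]

lemma counter_complete (b : Bool) : Tiles (cntTile b) (graphOf std) := by
  refine tiles_of_bijective fun n x => (Fintype.bijective_iff_injective_and_card _).2 ⟨?_, ?_⟩
  swap
  · rw [Fintype.card_prod, Fintype.card_prod, ZMod.card, Fintype.card_fin, mul_comm]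
  rintro ⟨o, w⟩ ⟨o', w'⟩ h
  simp only [cov, add_zero, carry_zero, sub_zero] at h
  obtain ⟨h1, h2⟩ := Prod.ext_iff.1 h
  set i := site (cntV b w) with hi
  set i' := site (cntV b w') with hi'
  set m : ℤ × ℤ := n + ((i : ℤ), ((o : ℕ) : ℤ)) with hm
  set m' : ℤ × ℤ := n + ((i' : ℤ), ((o' : ℕ) : ℤ)) with hm'
  have hslot : slot (rho m) m.1 = slot (rho m') m'.1 := by
    simp only [std, Prod.snd_add, zero_add] at h2
    have := congrArg ZMod.val h2
    rwa [ZMod.val_cast_of_lt (slot_lt (rho_lt m) _),
      ZMod.val_cast_of_lt (slot_lt (rho_lt m') _)] at this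
  set P : J := cP (Sum.inr b) with hPdef
  set B : J := cB (Sum.inr b) with hBdef
  set C : J := cC (Sum.inr b) with hCdef
  set D : J := cD b with hDdef
  have sP : ((i : ℕ) : ZMod (q P)) = bump _ (w B) := by simp [hi, site_spec, cntV, P, B]
  have sP' : ((i' : ℕ) : ZMod (q P)) = bump _ (w' B) := by simp [hi', site_spec, cntV, P, B]
  have sB : ((i : ℕ) : ZMod (q B)) = bump _ (w D) := by simp [hi, site_spec, cntV, B, D]
  have sB' : ((i' : ℕ) : ZMod (q B)) = bump _ (w' D) := by simp [hi', site_spec, cntV, B, D]
  have sC : ((i : ℕ) : ZMod (q C)) = w C := by simp [hi, site_spec, cntV, C]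
  have sC' : ((i' : ℕ) : ZMod (q C)) = w' C := by simp [hi', site_spec, cntV, C]
  have sD : ((i : ℕ) : ZMod (q D)) = 2 * w D - bump _ (w P) := by
    simp [hi, site_spec, cntV, P, D]
  have sD' : ((i' : ℕ) : ZMod (q D)) = 2 * w' D - bump _ (w' P) := by
    simp [hi', site_spec, cntV, P, D]
  have hz : m.1 % (q (cD !b) : ℤ) = m'.1 % (q (cD !b) : ℤ) := by
    rw [← ZMod.intCast_eq_intCast_iff']
    simp [m, m', hi, hi', site_spec, cntV]
  have eD : w D - bump _ (w P) + ((offN b (rho m) : ℕ) : ZMod (q D)) =
      w' D - bump _ (w' P) + ((offN b (rho m') : ℕ) : ZMod (q D)) := by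
    have := congrFun h1 D
    simpa [std, cntT, D, P] using this
  obtain ⟨hA, hB, -, -, -⟩ := slot_eq hslot
  have hact : act (Sum.inr b) m ↔ act (Sum.inr b) m' := by
    rw [act_seed, act_seed]; cases b <;> simpa
  have eP := congrFun h1 P
  have eB := congrFun h1 B
  have eC := congrFun h1 C
  simp only [Pi.add_apply, Prod.fst_add] at eP eB eC
  have hrho : rho m = rho m' ∧ w P = w' P ∧ w B = w' B ∧ w C = w' C ∧ w D = w' D := by
    by_cases ha : act (Sum.inr b) m
    · have ha' := hact.1 ha
      have hr : rho m = rho m' := class_eq (rho_lt _) (rho_lt _) hslot hz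
        (Or.inl ((act_seed b m).1 ha))
      refine ⟨hr, ?_⟩
      rw [hr] at eD
      simp [std, cntT, P, ha, ha', -ZMod.natCast_val] at eP
      simp [std, cntT, B, ha, ha', -ZMod.natCast_val] at eB
      simp [std, cntT, C, ha, ha', -ZMod.natCast_val] at eC
      have key : ∀ (o : Fin 299) (v : Idx q),
          idx (n + ((site (cntV b v) : ℤ), ((o : ℕ) : ℤ))) x P =
            x P + (n.1 : ZMod (q P)) + bump _ (v B) ∧
          idx (n + ((site (cntV b v) : ℤ), ((o : ℕ) : ℤ))) x B =
            x B + (n.1 : ZMod (q B)) + bump _ (v D) ∧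
          idx (n + ((site (cntV b v) : ℤ), ((o : ℕ) : ℤ))) x C =
            x C + (n.1 : ZMod (q C)) + v C := by
        intro o v
        simp [idx, add_assoc, site_spec, cntV, P, B, C, D]
      obtain ⟨k1, k2, k3⟩ := key o w
      obtain ⟨k1', k2', k3'⟩ := key o' w'
      rw [← hi, ← hm] at k1 k2 k3
      rw [← hi', ← hm'] at k1' k2' k3'
      rw [k1, k2, k1', k2'] at eC
      rw [k2, k3, k2', k3'] at eP
      rw [k1, k3, k1', k3'] at eB
      set P0 := x P + (n.1 : ZMod (q P))
      set B0 := x B + (n.1 : ZMod (q B))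
      set Z := x C + (n.1 : ZMod (q C)) - (-(w C) + (((P0 + bump _ (w B)).val +
        (B0 + bump _ (w D)).val : ℕ) : ZMod (q C))) with hZ
      have hZ' : Z = x C + (n.1 : ZMod (q C)) - (-(w' C) + (((P0 + bump _ (w' B)).val +
          (B0 + bump _ (w' D)).val : ℕ) : ZMod (q C))) := by
        rw [hZ]; push_cast; linear_combination -eC
      have gP : x C + (n.1 : ZMod (q C)) + w C - (((B0 + bump _ (w D)).val : ℕ) : ZMod (q C)) =
          Z + (((P0 + bump _ (w B)).val : ℕ) : ZMod (q C)) := by
        rw [hZ]; push_cast; ring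
      have gP' : x C + (n.1 : ZMod (q C)) + w' C - (((B0 + bump _ (w' D)).val : ℕ) : ZMod (q C)) =
          Z + (((P0 + bump _ (w' B)).val : ℕ) : ZMod (q C)) := by
        rw [hZ']; push_cast; ring
      have gB : x C + (n.1 : ZMod (q C)) + w C - (((P0 + bump _ (w B)).val : ℕ) : ZMod (q C)) =
          Z + (((B0 + bump _ (w D)).val : ℕ) : ZMod (q C)) := by
        rw [hZ]; push_cast; ring
      have gB' : x C + (n.1 : ZMod (q C)) + w' C - (((P0 + bump _ (w' B)).val : ℕ) : ZMod (q C)) =
          Z + (((B0 + bump _ (w' D)).val : ℕ) : ZMod (q C)) := by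
        rw [hZ']; push_cast; ring
      rw [gP, gP'] at eP
      rw [gB, gB'] at eB
      let md : Fin 3 → ℕ := fun c => if c = 0 then q P else if c = 1 then q B else q D
      let comp : Fin 3 → J := fun c => if c = 0 then P else if c = 1 then B else D
      let G : (c : Fin 3) → Bool → ZMod (q (comp c)) := fun c s =>
        match c with
        | 0 => eMap _ (Z + (((P0 + (if s then 1 else 0)).val : ℕ) : ZMod (q C)))
        | 1 => fMap _ (Z + (((B0 + (if s then 1 else 0)).val : ℕ) : ZMod (q C)))
        | 2 => ((offN b (rho m') : ℕ) : ZMod (q D))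
      let next : Fin 3 → Fin 3 := ![1, 2, 0]
      have hcyc : ∀ Q : Fin 3 → Prop, (∀ c, Q (next c) → Q c) → (∃ c, Q c) → ∀ c, Q c := by
        intro Q hQ ⟨c, hc⟩ d
        have a0 := hQ 0
        have a1 := hQ 1
        have a2 := hQ 2
        simp [next] at a0 a1 a2
        fin_cases c <;> fin_cases d <;> simp_all
      have heq : ∀ c : Fin 3,
          w (comp c) - bump _ (w (comp (next c))) + G c (decide (w (comp (next c)) = 1)) =
          w' (comp c) - bump _ (w' (comp (next c))) + G c (decide (w' (comp (next c)) = 1)) := by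
        intro c
        fin_cases c
        · show (w P - bump (q P) (w B) + eMap _ (Z + (((P0 + (if decide (w B = 1) then 1 else 0)).val :
              ℕ) : ZMod (q C))) : ZMod (q P)) = (w' P - bump (q P) (w' B) + eMap _ (Z + (((P0 +
              (if decide (w' B = 1) then 1 else 0)).val : ℕ) : ZMod (q C))) : ZMod (q P))
          simpa [bump, P, B, C, D, -ZMod.natCast_val] using eP
        · show (w B - bump (q B) (w D) + fMap _ (Z + (((B0 + (if decide (w D = 1) then 1 else 0)).val :
              ℕ) : ZMod (q C))) : ZMod (q B)) = (w' B - bump (q B) (w' D) + fMap _ (Z + (((B0 +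
              (if decide (w' D = 1) then 1 else 0)).val : ℕ) : ZMod (q C))) : ZMod (q B))
          simpa [bump, P, B, C, D, -ZMod.natCast_val] using eB
        · exact eD
      have hw : (fun c => w (comp c)) = fun c => w' (comp c) := by
        rcases window (Sum.inr b) Z with hl | hl
        · refine cycle_inj (x₀ := 0) (c := ((Z.val : ℕ) : ZMod (q P)) + P0) hcyc G (fun s => ?_) heq
          exact (hl _).trans (add_assoc _ _ _).symm
        · refine cycle_inj (x₀ := 1) (c := (((Z - start (Sum.inr b)).val : ℕ) : ZMod (q B)) + B0)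
            hcyc G (fun s => ?_) heq
          exact (hl _).trans (add_assoc _ _ _).symm
      have wP : w P = w' P := congrFun hw 0
      have wB : w B = w' B := congrFun hw 1
      have wD : w D = w' D := congrFun hw 2
      refine ⟨wP, wB, ?_, wD⟩
      rw [wB, wD] at eC
      linear_combination -eC
    · have ha' : ¬ act (Sum.inr b) m' := fun c => ha (hact.2 c)
      simp [std, cntT, P, ha, ha', -ZMod.natCast_val] at eP
      simp [std, cntT, B, ha, ha', -ZMod.natCast_val] at eB
      simp [std, cntT, C, ha, ha', -ZMod.natCast_val] at eC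
      have hs := slot_off hslot fun c => ha ((act_seed b m).2 c)
      rw [← ZMod.intCast_eq_intCast_iff'] at hs
      simp only [m, m', Prod.fst_add, Int.cast_add, Int.cast_natCast] at hs
      rw [sD, sD'] at hs
      have wD : w D = w' D := by linear_combination hs - eD
      have wB : w B = w' B := by
        rw [wD] at eB; linear_combination eB
      have wP : w P = w' P := by
        rw [wB] at eP; linear_combination eP
      refine ⟨class_eq (rho_lt _) (rho_lt _) hslot hz (Or.inr ?_), wP, wB,
        eC, wD⟩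
      rw [wD, wP, add_right_inj] at eD
      exact (ZMod.natCast_eq_natCast_iff' _ _ _).1 eD
  obtain ⟨hr, wP, wB, wC, wD⟩ := hrho
  obtain rfl : o = o' := by
    refine Fin.ext ?_
    have := o.isLt
    have := o'.isLt
    simp only [rho, m, m', Prod.snd_add] at hr
    omega
  have hv : cntV b w = cntV b w' := by
    funext j
    rcases j with ⟨c | b', r⟩ | b'
    · rfl
    · by_cases hb : b' = b
      · subst hb
        fin_cases r <;> simp [cntV] <;> simp_all [P, B, C, D]
      · simp [cntV, hb]
    · by_cases hb : b' = b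
      · subst hb; simp [cntV]; simp_all [P, B, C, D]
      · simp [cntV, hb]
  have hmm : m = m' := by rw [hm, hm', hi, hi', hv]
  rw [hmm] at h1
  refine Prod.ext rfl (funext fun j => ?_)
  have := congrFun h1 j
  simp only [Prod.fst_add, Pi.add_apply, add_left_inj] at this
  rcases j with ⟨c | b', r⟩ | b'
  · simpa [cntT] using this
  · by_cases hb : b' = b
    · subst hb
      fin_cases r
      · exact wP
      · exact wB
      · exact wC
    · simpa [cntT, hb] using this
  · by_cases hb : b' = b
    · subst hb; exact wD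
    · simpa [cntT, hb] using this

end Vale.Agent.P043.Three
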