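import Vale.Agent.P043.Final
import Vale.Agent.P043.Euclid
import Vale.Agent.P043.Lift1
import Vale.Agent.P043.Three.Carry

/-!
From a system of equations on `(ℤ × ℤ) × G₀`, `G₀` cyclic, without vertically periodic solutions to
aperiodic tiles of `ℤ ^ d` and of `ℝ ^ d` for every `3 ≤ d`.
-/

open MeasureTheory Set Function

namespace Vale.Agent.P043.Three

lemma good_lift1 {G : Type*} [AddCommGroup G] [DecidableEq G] {N : ℕ} [NeZero N]
    {F : Finset (G × ZMod N)} {w : G} (h : Good F ((w, 0) : G × ZMod N)) :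
    ∃ F' : Finset (G × ℤ), Good F' ((w, 0) : G × ℤ) := by
  obtain ⟨⟨A, hA⟩, hP⟩ := h
  set e : Fin F.card → G × ZMod N := fun i => (F.equivFin.symm i).1 with he
  have hinj : Injective e := Subtype.val_injective.comp F.equivFin.symm.injective
  have himg : (Finset.univ : Finset (Fin F.card)).image e = F := by
    ext f
    simp only [Finset.mem_image, Finset.mem_univ, true_and, he]
    exact ⟨by rintro ⟨i, rfl⟩; exact (F.equivFin.symm i).2,
      fun hf => ⟨F.equivFin ⟨f, hf⟩, by simp⟩⟩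
  refine ⟨Line.liftTile e, ⟨_, Line.lift_complete hinj (himg.symm ▸ hA)⟩,
    fun A' hA' P hP0 hinv => ?_⟩
  have h' := Line.lift_sound hinj hA'
  rw [himg] at h'
  refine hP _ h' P hP0 fun g => ?_
  have := image_invariant (f := Line.red G N) hinv g
  simpa [Line.red] using this

/-- A system of equations over a cyclic group without periodic solutions gives an aperiodic tile
of `(ℤ × ℤ) × ℤ`. -/
theorem good_of_cyclic {G₀ : Type*} [AddCommGroup G₀] [DecidableEq G₀] {N : ℕ} [NeZero N]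
    (φ : ZMod N ≃+ G₀) (E : Finset (Finset ((ℤ × ℤ) × G₀))) (hE : E.Nonempty)
    (hex : ∃ A, ∀ F ∈ E, Tiles F A)
    (hno : ∀ A, (∀ F ∈ E, Tiles F A) → ∀ P : ℕ, 0 < P →
      ¬ ∀ g, g ∈ A ↔ g + ((((0 : ℤ), (P : ℤ)), 0) : (ℤ × ℤ) × G₀) ∈ A) :
    ∃ (F : Finset ((ℤ × ℤ) × ℤ)) (v : (ℤ × ℤ) × ℤ), Good F v := by
  classical
  have hN : 0 < N := Nat.pos_of_ne_zero (NeZero.ne N)
  set r := E.card with hrdef
  have hr : 0 < r := Finset.card_pos.2 hE
  set m := N * r + 1 with hm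
  set B := 2 ^ m * m * N + 2 ^ m * (N - 1) + 2 with hB
  set M := pieceTotal m B with hMdef
  have hMeq : M = N * (r * B + 2 ^ m * m + 2 ^ m) + 1 := by
    have h1 : M + 1 = m * B + 2 ^ m := by
      rw [hMdef, pieceTotal, Finset.sum_add_distrib, add_assoc, sum_two_pow_fin]; simp
    have h2 : B + 2 ^ m = N * (2 ^ m * m + 2 ^ m) + 2 := by
      obtain ⟨L, hL⟩ : ∃ L, N = L + 1 := ⟨N - 1, by omega⟩
      rw [hB, hL, Nat.add_sub_cancel]; ring
    have h3 : m * B + 2 ^ m = N * r * B + (B + 2 ^ m) := by rw [hm]; ring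
    rw [h3, h2] at h1
    have h4 : N * r * B + N * (2 ^ m * m + 2 ^ m) = N * (r * B + 2 ^ m * m + 2 ^ m) := by ring
    omega
  have hcop : Nat.Coprime N M := Nat.coprime_of_dvd' fun k _ h1 h2 => by
    rw [hMeq] at h2
    exact (Nat.dvd_add_right (h1.mul_right _)).1 h2
  have : NeZero (pieceTotal m B) := ⟨by rw [← hMdef, hMeq]; omega⟩
  have : NeZero M := ⟨by rw [hMeq]; omega⟩
  have : NeZero (N * M) := ⟨mul_ne_zero hN.ne' (NeZero.ne M)⟩
  set Fs : Fin m → Finset ((ℤ × ℤ) × G₀) := fun i =>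
    (E.equivFin.symm ⟨(i : ℕ) % r, Nat.mod_lt _ hr⟩).1 with hFs
  have hsurj : ∀ F ∈ E, ∃ i, Fs i = F := by
    intro F hF
    set l := E.equivFin ⟨F, hF⟩
    have hl : (l : ℕ) < m := by
      have h1 := l.isLt
      have h2 : r ≤ N * r := Nat.le_mul_of_pos_left _ hN
      omega
    refine ⟨⟨l, hl⟩, ?_⟩
    have e : (⟨(l : ℕ) % r, Nat.mod_lt _ hr⟩ : Fin r) = l := Fin.ext (Nat.mod_eq_of_lt l.isLt)
    simp only [hFs, e, l, Equiv.symm_apply_apply]
  set v : (ℤ × ℤ) × G₀ := (((0 : ℤ), (1 : ℤ)), 0) with hv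
  have hmerge := good_merge (B := B) (Fs := Fs) (v := v)
    (lt_of_le_of_lt (by
      calc m * 2 ^ m = 2 ^ m * m * 1 := by ring
        _ ≤ 2 ^ m * m * N := Nat.mul_le_mul_left _ hN)
      (show 2 ^ m * m * N < B by omega))
    ⟨hex.choose, fun i => hex.choose_spec _ (E.equivFin.symm _).2⟩
    (fun A hA P hP0 hinv => hno A
      (fun F hF => by obtain ⟨i, rfl⟩ := hsurj F hF; exact hA i) P hP0
      fun g => by simpa [hv] using hinv g)
  let θ : ((ℤ × ℤ) × G₀) × ZMod (pieceTotal m B) ≃+ (ℤ × ℤ) × ZMod (N * M) :=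
    AddEquiv.prodAssoc.trans (AddEquiv.prodCongr (AddEquiv.refl _)
      ((AddEquiv.prodCongr φ.symm (AddEquiv.refl _)).trans
        (ZMod.chineseRemainder hcop).symm.toAddEquiv))
  have hfin := good_map θ hmerge
  have hθ : θ ((v, 0) : ((ℤ × ℤ) × G₀) × ZMod (pieceTotal m B)) = (((0 : ℤ), (1 : ℤ)), 0) := by
    simp only [θ, hv, AddEquiv.trans_apply]
    refine Prod.ext rfl ?_
    show (ZMod.chineseRemainder hcop).symm.toAddEquiv (φ.symm 0, 0) = 0
    simp [Prod.mk_zero_zero]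
  rw [hθ] at hfin
  obtain ⟨F', hF'⟩ := good_lift1 hfin
  exact ⟨F', _, hF'⟩

/-- The extension is cyclic when the moduli are pairwise coprime and coprime to `S`. -/
noncomputable def extEquiv {J : Type*} [Fintype J] [DecidableEq J] (q : J → ℕ) (S : ℕ)
    (hq : Pairwise fun i j => Nat.Coprime (q i) (q j)) (hS : ∀ j, Nat.Coprime (q j) S) :
    ZMod ((∏ j, q j ^ 2) * S) ≃+ Ext q S :=
  (ZMod.chineseRemainder (Nat.Coprime.prod_left fun j _ => (hS j).pow_left 2)).toAddEquiv.trans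
    (AddEquiv.prodCongr
      (ZMod.prodEquivPi (fun j => q j ^ 2) fun _ _ h => (hq h).pow 2 2).toAddEquiv
      (AddEquiv.refl _))

variable {d : ℕ}

lemma good_dim (h : ∃ (F : Finset ((ℤ × ℤ) × ℤ)) (v : (ℤ × ℤ) × ℤ), Good F v) (hd : 3 ≤ d) :
    ∃ (F : Finset (Fin d → ℤ)) (v : Fin d → ℤ), Good F v := by
  classical
  obtain ⟨F, v, hF⟩ := h
  obtain ⟨r, rfl⟩ := Nat.exists_eq_add_of_le hd
  let e : ((ℤ × ℤ) × ℤ) × (Fin r → ℤ) ≃+ (Fin (3 + r) → ℤ) :=
    (LinearEquiv.ofFinrankEq (R := ℤ) _ _ (by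
      simp [Module.finrank_prod])).toAddEquiv
  exact ⟨_, _, good_map e (good_slice (K := Fin r → ℤ) hF)⟩

/-- An aperiodic tile in dimension three gives both forms in every dimension at least three. -/
theorem aperiodic_both (h : ∃ (F : Finset ((ℤ × ℤ) × ℤ)) (v : (ℤ × ℤ) × ℤ), Good F v)
    (d : ℕ) (hd : 3 ≤ d) :
    (∃ F : Finset (Fin d → ℤ), F.Nonempty ∧
      (∃ A : Set (Fin d → ℤ), ∀ g, ∃! f, f ∈ F ∧ g - f ∈ A) ∧
      ∀ A : Set (Fin d → ℤ), (∀ g, ∃! f, f ∈ F ∧ g - f ∈ A) →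
        ¬ ∃ H : AddSubgroup (Fin d → ℤ), H.FiniteIndex ∧ ∀ h ∈ H, (fun a => a + h) '' A = A) ∧
    ∃ Ω : Set (Fin d → ℝ), MeasurableSet Ω ∧ Bornology.IsBounded Ω ∧ 0 < volume Ω ∧
      (∃ A : Set (Fin d → ℝ), volume (⋃ a ∈ A, (fun x => x + a) '' Ω)ᶜ = 0 ∧
        ∀ a ∈ A, ∀ b ∈ A, a ≠ b →
          volume ((fun x => x + a) '' Ω ∩ (fun x => x + b) '' Ω) = 0) ∧
      ∀ A : Set (Fin d → ℝ), volume (⋃ a ∈ A, (fun x => x + a) '' Ω)ᶜ = 0 →
        (∀ a ∈ A, ∀ b ∈ A, a ≠ b →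
          volume ((fun x => x + a) '' Ω ∩ (fun x => x + b) '' Ω) = 0) →
        ¬ ∃ v : Fin d → Fin d → ℝ, LinearIndependent ℝ v ∧ ∀ i, (fun a => a + v i) '' A = A := by
  classical
  obtain ⟨F, u, ⟨A₁, hA₁⟩, hno⟩ := good_dim h hd
  have hF : F.Nonempty := by
    obtain ⟨f, ⟨hf, -⟩, -⟩ := hA₁ 0
    exact ⟨f, hf⟩
  refine ⟨⟨F, hF, ⟨A₁, hA₁⟩, fun A hA ⟨H, hfi, hH⟩ => ?_⟩,
    Euclid.body F, Euclid.measurableSet_body F, Euclid.isBounded_body F,
    Euclid.volume_body_pos hF, ⟨_, Euclid.tiles_body hA₁⟩, fun A hcov hdisj ⟨v, hv, hinv⟩ => ?_⟩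
  · refine hno A hA H.index (Nat.pos_of_ne_zero hfi.index_ne_zero) fun g => ?_
    have e1 := hH (H.index • u) (H.nsmul_index_mem _)
    constructor
    · intro hg
      rw [← e1]; exact ⟨g, hg, rfl⟩
    · intro hg
      rw [← e1] at hg
      obtain ⟨a, ha, he⟩ := hg
      rw [← add_right_cancel he]; exact ha
  obtain ⟨c₀, A₀, hA₀, hmem⟩ := Euclid.discretize (le_trans (by norm_num) hd) hF ⟨hcov, hdisj⟩
  obtain ⟨f₀, ⟨-, hz₀⟩, -⟩ := hA₀ 0
  have hw : ∀ i, ∃ w, v i = Euclid.toR d w := by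
    intro i
    have h0 : c₀ + Euclid.toR d (0 - f₀) + v i ∈ A := by
      rw [← hinv i]
      exact ⟨_, (hmem _).2 ⟨_, hz₀, rfl⟩, rfl⟩
    obtain ⟨z, -, hz⟩ := (hmem _).1 h0
    exact ⟨z - (0 - f₀), by rw [map_sub]; linear_combination (norm := abel) hz⟩
  choose w hw using hw
  have hin : ∀ z, c₀ + Euclid.toR d z ∈ A ↔ z ∈ A₀ := fun z => by
    constructor
    · intro hz
      obtain ⟨z', hz', e⟩ := (hmem _).1 hz
      rwa [Euclid.toR_injective (add_left_cancel e)]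
    · exact fun hz => (hmem _).2 ⟨z, hz, rfl⟩
  obtain ⟨P, hP, hper⟩ := Euclid.multiple_period (A₀ := A₀) (w := w)
    (by simpa only [← hw] using hv) (fun i g => by
      rw [← hin g, ← hin (g + w i), map_add, ← hw i, ← add_assoc]
      constructor
      · intro h
        rw [← hinv i]
        exact ⟨_, h, rfl⟩
      · intro h
        rw [← hinv i] at h
        obtain ⟨a, ha, e⟩ := h
        rwa [← add_right_cancel e]) u
  exact hno A₀ hA₀ P hP hper

end Vale.Agent.P043.Three
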