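import Vale.Agent.P043.Three.System
import Vale.Agent.P043.Three.Transfer

/-!
An aperiodic tile of the product of two lattices of rank two and one.
-/

open Finset Function

namespace Vale.Agent.P043.Three

theorem exists_good_three :
    ∃ (F : Finset ((ℤ × ℤ) × ℤ)) (v : (ℤ × ℤ) × ℤ), Good F v := by
  haveI : NeZero ((∏ j, q j ^ 2) * 299) :=
    ⟨mul_ne_zero (Finset.prod_ne_zero_iff.2 fun j _ => pow_ne_zero 2 (q_prime j).ne_zero)
      (by norm_num)⟩
  exact good_of_cyclic
    (extEquiv q 299
      (fun i k hik => (Nat.coprime_primes (q_prime i) (q_prime k)).2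
        fun e => hik (q_injective e)) coprime_299)
    eqs ⟨_, mem_eqs.2 (Or.inl rfl)⟩ ⟨_, complete⟩ (fun _ h P hP => sound h P hP)

end Vale.Agent.P043.Three
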