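import Vale.Agent.P043.Three.Clause
import Vale.Agent.P043.Three.Column
import Vale.Agent.P043.Three.Counter
import Vale.Agent.P043.Three.CounterStd

/-!
The system of equations: it is solved by the standard solution and has no periodic solution.
-/

open Finset Function

set_option linter.unusedSectionVars false

namespace Vale.Agent.P043.Three

open Board

/-- The digits are those of the last digit of an affine map. -/
def Pattern (d : Fin 529 → Fin 22) : Prop :=
  ∃ A B : ℤ, ∀ j : Fin 529,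
    lastDigit 23 (A * ((j : ℕ) : ℤ) + B) = (((d j : ℕ) + 1 : ℕ) : ZMod 23)

/-- The digit forced by a seed unit. -/
def seedVal (b : Bool) : ZMod 23 := if b then 2 else 1

/-- The column of a multiple of the width. -/
def col23 (i : Fin 23) : Fin 529 := ⟨23 * (i : ℕ), by omega⟩

open scoped Classical in
/-- The sets of units that are not all active. -/
def IsClause (D : Finset U) : Prop :=
  (∃ (j : Fin 529) (v v' : Fin 22), v ≠ v' ∧ D = {col j v, col j v'}) ∨
    (∃ d : Fin 529 → Fin 22, ¬ Pattern d ∧ D = univ.image fun j => col j (d j)) ∨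
    ∃ (b : Bool) (i : Fin 23) (v : Fin 22), (((v : ℕ) + 1 : ℕ) : ZMod 23) ≠ seedVal b ∧
      D = {Sum.inr b, col (col23 i) v}

lemma IsClause.nonempty {D : Finset U} (h : IsClause D) : D.Nonempty := by
  classical
  rcases h with ⟨j, v, v', -, rfl⟩ | ⟨d, -, rfl⟩ | ⟨b, i, v, -, rfl⟩
  · exact ⟨col j v, by simp⟩
  · exact ⟨col 0 (d 0), mem_image_of_mem _ (mem_univ _)⟩
  · exact ⟨Sum.inr b, by simp⟩

/-- A tile is one of the equations. -/
def IsEq (F : Finset Amb) : Prop :=
  F = graphTile ∨ (∃ j, F = ruleTile j) ∨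
    (∃ (u : U) (r : Fin 3) (i : J), (∀ r', i ≠ Sum.inl (u, r')) ∧
      F = equalTile (Sum.inl (u, r)) 0 (Pi.single i 1)) ∨
    (∃ D e, IsClause D ∧ F = clauseTile D e) ∨
    (∃ j, F = colTile j) ∨ ∃ b, F = cntTile b

lemma exists_eqs : ∃ E : Finset (Finset Amb), ∀ F, F ∈ E ↔ IsEq F := by
  classical
  have fin : {F | IsEq F}.Finite := by
    refine Set.Finite.subset ((((((Set.finite_singleton (graphTile : Finset Amb)).union
      (Set.finite_range ruleTile)).union
      (Set.finite_range fun p : U × Fin 3 × J =>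
        (equalTile (Sum.inl (p.1, p.2.1)) 0 (Pi.single p.2.2 1) : Finset Amb))).union
      (Set.finite_range fun p : Finset U × (U → Bool) => clauseTile p.1 p.2)).union
      (Set.finite_range colTile)).union (Set.finite_range cntTile)) ?_
    rintro F (rfl | ⟨j, rfl⟩ | ⟨u, r, i, -, rfl⟩ | ⟨D, e, -, rfl⟩ | ⟨j, rfl⟩ | ⟨b, rfl⟩)
    · exact Or.inl (Or.inl (Or.inl (Or.inl (Or.inl rfl))))
    · exact Or.inl (Or.inl (Or.inl (Or.inl (Or.inr ⟨j, rfl⟩))))
    · exact Or.inl (Or.inl (Or.inl (Or.inr ⟨(u, r, i), rfl⟩)))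
    · exact Or.inl (Or.inl (Or.inr ⟨(D, e), rfl⟩))
    · exact Or.inl (Or.inr ⟨j, rfl⟩)
    · exact Or.inr ⟨b, rfl⟩
  exact ⟨fin.toFinset, fun F => fin.mem_toFinset⟩

/-- All equations. -/
noncomputable def eqs : Finset (Finset Amb) := exists_eqs.choose

lemma mem_eqs {F : Finset Amb} : F ∈ eqs ↔ IsEq F := exists_eqs.choose_spec F

theorem sound {A : Set Amb} (h : ∀ F ∈ eqs, Tiles F A) (P : ℕ) (hP : 0 < P) :
    ¬ ∀ g, g ∈ A ↔ g + ((((0 : ℤ), (P : ℤ)), 0) : Amb) ∈ A := by
  classical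
  intro hper
  obtain ⟨a, rfl⟩ := exists_graph (h _ (mem_eqs.2 (Or.inl rfl)))
  have hr : Rule a := rule_of_tiles fun j => h _ (mem_eqs.2 (Or.inr (Or.inl ⟨j, rfl⟩)))
  have hdep : Dep a := dep_of_tiles fun u r i hi =>
    h _ (mem_eqs.2 (Or.inr (Or.inr (Or.inl ⟨u, r, i, hi, rfl⟩))))
  have hcl : ∀ D, IsClause D → ∀ n, ∃ d ∈ D, ¬ Active a d n := fun D hD n =>
    clause_sound hdep hD.nonempty
      (fun e => h _ (mem_eqs.2 (Or.inr (Or.inr (Or.inr (Or.inl ⟨D, e, hD, rfl⟩)))))) n
  have hcol : ∀ j n, ∃ v, Active a (col j v) n := fun j n =>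
    column_sound hr (h _ (mem_eqs.2 (Or.inr (Or.inr (Or.inr (Or.inr (Or.inl ⟨j, rfl⟩))))))) n
  have haP : ∀ n x, a (n + ((0 : ℤ), (P : ℤ))) x = a n x := fun n x => by
    have h1 := (hper (n, sec x + emb (a n x))).1 (mem_graphOf.2 rfl)
    have e : (n, sec x + emb (a n x)) + ((((0 : ℤ), (P : ℤ)), 0) : Amb) =
        (n + ((0 : ℤ), (P : ℤ)), sec x + emb (a n x)) :=
      Prod.ext rfl (add_zero _)
    rw [e, mem_graphOf] at h1
    exact h1.symm
  choose ν hν using hcol
  have uniq : ∀ j n v, Active a (col j v) n → v = ν j n := by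
    intro j n v hv
    by_contra hne
    obtain ⟨d, hd, hd'⟩ := hcl _ (Or.inl ⟨j, v, ν j n, hne, rfl⟩) n
    simp only [mem_insert, mem_singleton] at hd
    rcases hd with rfl | rfl
    · exact hd' hv
    · exact hd' (hν j n)
  have step : ∀ j n, ν j (n + dirCol j) = ν j n := fun j n =>
    uniq j n _ ((hr.active_iff (col j _) n).1 (hν j (n + dirCol j)))
  have line : ∀ j (n : ℤ × ℤ), ν j n = ν j (0, n.1 * ((j : ℕ) : ℤ) + n.2) := by
    intro j n
    have : ∀ z : ℤ, ∀ m : ℤ, ν j (z, m - z * (j : ℕ)) = ν j (0, m) := by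
      intro z
      induction z using Int.induction_on with
      | zero => intro m; simp
      | succ z ih =>
        intro m
        rw [← ih m, ← step j ((z : ℤ), m - z * (j : ℕ))]
        congr 1
        ext <;> simp [dirCol]
        ring
      | pred z ih =>
        intro m
        rw [← ih m, ← step j (-(z : ℤ) - 1, m - (-(z : ℤ) - 1) * (j : ℕ))]
        congr 1
        ext <;> simp [dirCol]
        ring
    rw [← this n.1 (n.1 * (j : ℕ) + n.2)]
    simp
  set T : ℕ → ℤ → ZMod 23 := fun j m =>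
    if hj : j < 529 then (((ν ⟨j, hj⟩ (0, m) : ℕ) + 1 : ℕ) : ZMod 23) else 1 with hT
  have hTn : ∀ (a b : ℤ) (j : Fin 529),
      T j (a * ((j : ℕ) : ℤ) + b) = (((ν j (a, b) : ℕ) + 1 : ℕ) : ZMod 23) := by
    intro a b j
    simp only [hT, dif_pos j.isLt]
    rw [line j (a, b)]
  have hTL : LinesIn 23 T := by
    intro a' b'
    by_contra hcon
    have hnp : ¬ Pattern fun j => ν j (a', b') := by
      rintro ⟨A, B, hAB⟩
      exact hcon ⟨A, B, fun j hj => (hTn a' b' ⟨j, by omega⟩).trans (hAB ⟨j, by omega⟩).symm⟩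
    obtain ⟨d, hd, hd'⟩ := hcl _ (Or.inr (Or.inl ⟨_, hnp, rfl⟩)) (a', b')
    obtain ⟨j, -, rfl⟩ := mem_image.1 hd
    exact hd' (hν j (a', b'))
  have seed : ∀ b, ∃ o : ℤ, ∀ i : ℕ, i < 23 →
      T (23 * i) (0 * ((23 * i : ℕ) : ℤ) + o) = seedVal b := by
    intro b
    obtain ⟨o, ho⟩ := counter_sound hr
      (h _ (mem_eqs.2 (Or.inr (Or.inr (Or.inr (Or.inr (Or.inr ⟨b, rfl⟩))))))) 0
    rw [zero_add] at ho
    refine ⟨((o : ℕ) : ℤ), fun i hi => ?_⟩
    by_contra hne
    obtain ⟨d, hd, hd'⟩ := hcl _ (Or.inr (Or.inr ⟨b, ⟨i, hi⟩,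
      ν (col23 ⟨i, hi⟩) (0, ((o : ℕ) : ℤ)),
      fun e => hne ((hTn 0 ((o : ℕ) : ℤ) (col23 ⟨i, hi⟩)).trans e), rfl⟩))
      ((0 : ℤ), ((o : ℕ) : ℤ))
    simp only [mem_insert, mem_singleton] at hd
    rcases hd with rfl | rfl
    · exact hd' ho
    · exact hd' (hν _ _)
  obtain ⟨o, ho⟩ := seed false
  obtain ⟨o', ho'⟩ := seed true
  have hs : Seeded 23 T := ⟨0, o, 0, o', seedVal false, seedVal true, by decide, ho, ho'⟩
  refine seeded_no_period (by norm_num) hTL hs hP fun j hj m => ?_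
  have hj' : j < 529 := by omega
  simp only [hT, dif_pos hj']
  congr 3
  refine uniq _ _ _ ?_
  have := hν ⟨j, hj'⟩ (0, m + (P : ℤ))
  rw [show ((0 : ℤ), m + (P : ℤ)) = (0, m) + ((0 : ℤ), (P : ℤ)) by simp] at this ⊢
  simpa only [Active, Inact, haP] using this

theorem complete : ∀ F ∈ eqs, Tiles F (graphOf std) := by
  classical
  intro F hF
  rcases mem_eqs.1 hF with rfl | ⟨j, rfl⟩ | ⟨u, r, i, hi, rfl⟩ | ⟨D, e, hD, rfl⟩ | ⟨j, rfl⟩ |
    ⟨b, rfl⟩
  · exact graph_tiles _
  · exact rule_std.complete j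
  · exact dep_std.complete r hi
  · refine clause_complete dep_std (fun n => ?_) e
    suffices ∃ d ∈ D, ¬ act d n by
      obtain ⟨d, hd, hd'⟩ := this
      exact ⟨d, hd, fun hA => hA ⟨inact_std hd' 0, inact_std hd' 1⟩⟩
    rcases hD with ⟨j, v, v', hne, rfl⟩ | ⟨d, hd, rfl⟩ | ⟨b, i, v, hne, rfl⟩
    · by_contra hc
      simp only [not_exists, not_and, not_not, mem_insert, mem_singleton] at hc
      have e1 := hc _ (Or.inl rfl)
      have e2 := hc _ (Or.inr rfl)
      simp only [act] at e1 e2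
      rw [e1, ZMod.natCast_eq_natCast_iff', Nat.mod_eq_of_lt (by omega),
        Nat.mod_eq_of_lt (by omega)] at e2
      exact hne (Fin.ext (by omega))
    · by_contra hc
      simp only [not_exists, not_and, not_not] at hc
      exact hd ⟨n.1, n.2, fun j => hc _ (mem_image_of_mem _ (mem_univ j))⟩
    · by_contra hc
      simp only [not_exists, not_and, not_not, mem_insert, mem_singleton] at hc
      have e1 := hc _ (Or.inl rfl)
      have e2 := hc _ (Or.inr rfl)
      have key : (n.2 : ZMod 23) = seedVal b := by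
        cases b <;> simp only [act, IsA, IsB, rho] at e1 <;> simp only [seedVal]
        · have : n.2 % 23 = 1 := by omega
          rw [← ZMod.intCast_mod n.2 23, Nat.cast_ofNat, this]; rfl
        · have : n.2 % 23 = 2 := by omega
          rw [← ZMod.intCast_mod n.2 23, Nat.cast_ofNat, this]; rfl
      have e3 : ((n.1 * (((col23 i : Fin 529) : ℕ) : ℤ) + n.2 : ℤ) : ZMod 23) = seedVal b := by
        simp only [col23]
        push_cast
        rw [key, show (23 : ZMod 23) = 0 from by decide]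
        ring
      refine hne ?_
      simp only [act] at e2
      rw [← e2, lastDigit_of_cast_ne (by rw [e3]; cases b <;> decide), e3]
  · exact column_complete j
  · exact counter_complete b

end Vale.Agent.P043.Three
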