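import Vale.Agent.P043.Three.Carry

/-!
Units, their primes and shifts, and the two linear families of equations between them.
-/

open Finset Function

set_option linter.unusedSectionVars false

namespace Vale.Agent.P043.Three

/-- Units: one for each column and digit, and two seed units. -/
abbrev U := (Fin 529 × Fin 22) ⊕ Bool

/-- Components: three for each unit, and one counting component for each seed unit. -/
abbrev J := (U × Fin 3) ⊕ Bool

/-- The unit of a column and a digit. -/
abbrev col (j : Fin 529) (v : Fin 22) : U := Sum.inl (j, v)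

/-- The first component of a unit. -/
abbrev cP (u : U) : J := Sum.inl (u, 0)

/-- The second component of a unit. -/
abbrev cB (u : U) : J := Sum.inl (u, 1)

/-- The coupling component of a unit. -/
abbrev cC (u : U) : J := Sum.inl (u, 2)

/-- The counting component of a seed unit. -/
abbrev cD (b : Bool) : J := Sum.inr b

/-- An upper bound on the primes of the first two components. -/
noncomputable def bound : ℕ := Nat.nth Nat.Prime (300 + 2 * Fintype.card U)

/-- The moduli. -/
noncomputable def q : J → ℕ
  | Sum.inl (u, r) =>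
    if r = 2 then Nat.nth Nat.Prime (2 * bound + (Fintype.equivFin U u : ℕ))
    else Nat.nth Nat.Prime (300 + (2 * (Fintype.equivFin U u : ℕ) + (r : ℕ)))
  | Sum.inr b => if b then 11 else 2

lemma q_prime (j : J) : (q j).Prime := by
  rcases j with ⟨u, r⟩ | b
  · simp only [q]; split_ifs <;> exact Nat.prime_nth_prime _
  · cases b <;> norm_num [q]

instance fact_q (j : J) : Fact (q j).Prime := ⟨q_prime j⟩

instance neZero_q (j : J) : NeZero (q j) := ⟨(q_prime j).ne_zero⟩

lemma q_inl_big (u : U) (r : Fin 3) : 300 < q (Sum.inl (u, r)) := by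
  simp only [q]
  split_ifs
  · have h1 := Nat.add_two_le_nth_prime (2 * bound + (Fintype.equivFin U u : ℕ))
    have h2 := Nat.add_two_le_nth_prime (300 + 2 * Fintype.card U)
    rw [← bound] at h2
    omega
  · have := Nat.add_two_le_nth_prime (300 + (2 * (Fintype.equivFin U u : ℕ) + (r : ℕ)))
    omega

lemma q_inr (b : Bool) : q (Sum.inr b) = if b then 11 else 2 := rfl

lemma q_injective : Injective q := by
  intro i k h
  rcases i with ⟨u, r⟩ | b <;> rcases k with ⟨u', r'⟩ | b'
  · have inj : ∀ {m n : ℕ}, Nat.nth Nat.Prime m = Nat.nth Nat.Prime n → m = n := fun e =>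
      (Nat.nth_strictMono Nat.infinite_setOfPred_prime).injective e
    have h2 := Nat.add_two_le_nth_prime (300 + 2 * Fintype.card U)
    rw [← bound] at h2
    have a1 := (Fintype.equivFin U u).isLt
    have a2 := (Fintype.equivFin U u').isLt
    simp only [q] at h
    have key : (Fintype.equivFin U u : ℕ) = Fintype.equivFin U u' ∧ r = r' := by
      split_ifs at h with c c'
      · have := inj h; exact ⟨by omega, c.trans c'.symm⟩
      · have := inj h; omega
      · have := inj h; omega
      · have := inj h; exact ⟨by omega, Fin.ext (by omega)⟩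
    rw [(Fintype.equivFin U).injective (Fin.ext key.1), key.2]
  · have := q_inl_big u r; rw [h, q_inr] at this; split_ifs at this <;> omega
  · have := q_inl_big u' r'; rw [← h, q_inr] at this; split_ifs at this <;> omega
  · cases b <;> cases b' <;> simp_all [q]

lemma coupling_big (u : U) : q (cP u) + q (cB u) ≤ q (cC u) + 2 := by
  have hm := Nat.nth_strictMono Nat.infinite_setOfPred_prime
  have a1 := (Fintype.equivFin U u).isLt
  have h1 : q (cP u) ≤ bound :=
    hm.monotone (show 300 + (2 * (Fintype.equivFin U u : ℕ) + 0) ≤ _ by omega)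
  have h2 : q (cB u) ≤ bound :=
    hm.monotone (show 300 + (2 * (Fintype.equivFin U u : ℕ) + 1) ≤ _ by omega)
  have h3 := Nat.add_two_le_nth_prime (2 * bound + (Fintype.equivFin U u : ℕ))
  have h4 : q (cC u) = Nat.nth Nat.Prime (2 * bound + (Fintype.equivFin U u : ℕ)) := rfl
  omega

lemma coprime_299 (j : J) : Nat.Coprime (q j) 299 := by
  rw [(q_prime j).coprime_iff_not_dvd]
  intro h
  rcases j with ⟨u, r⟩ | b
  · have := q_inl_big u r
    have := Nat.le_of_dvd (by norm_num) h
    omega
  · cases b <;> norm_num [q] at h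

attribute [irreducible] q

/-- The value group. -/
abbrev V := Val q 299

/-- The ambient group of the system. -/
abbrev Amb := Space q 299

/-- The index shift of a component: the other two components of its unit. -/
noncomputable def sh : J → Idx q
  | Sum.inl (u, r) => fun i =>
    match i with
    | Sum.inl (u', r') => if u' = u ∧ r' ≠ r then 1 else 0
    | Sum.inr _ => 0
  | Sum.inr _ => 0

lemma sh_inl (u u' : U) (r r' : Fin 3) :
    sh (Sum.inl (u, r)) (Sum.inl (u', r')) = if u' = u ∧ r' ≠ r then 1 else 0 := rfl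

lemma sh_inl_inr (u : U) (r : Fin 3) (b : Bool) : sh (Sum.inl (u, r)) (Sum.inr b) = 0 := rfl

@[simp] lemma sh_inr (b : Bool) : sh (Sum.inr b) = 0 := rfl

lemma sh_self (j : J) : sh j j = 0 := by
  rcases j with ⟨u, r⟩ | b <;> simp [sh]

/-- The direction of the lines of a column. -/
def dirCol (j : Fin 529) : ℤ × ℤ := (1, -((j : ℕ) : ℤ))

/-- The direction of the lines of a unit. -/
def dir : U → ℤ × ℤ
  | Sum.inl (j, _) => dirCol j
  | Sum.inr _ => (1, 0)

/-- The direction of the lines of a component. -/
def dirJ : J → ℤ × ℤ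
  | Sum.inl (u, _) => dir u
  | Sum.inr _ => (1, 0)

/-- Moving along the line of a component is an index shift. -/
def Rule (a : ℤ × ℤ → Idx q → V) : Prop :=
  ∀ j n x, (a (n + dirJ j) x).1 j = (a n (x + sh j)).1 j

/-- A component of a unit depends on the indices of its unit only. -/
def Dep (a : ℤ × ℤ → Idx q → V) : Prop :=
  ∀ (u : U) (r : Fin 3) n x y, (∀ r' : Fin 3, x (Sum.inl (u, r')) = y (Sum.inl (u, r'))) →
    (a n x).1 (Sum.inl (u, r)) = (a n y).1 (Sum.inl (u, r))

/-- The equation of a line rule. -/
noncomputable def ruleTile (j : J) : Finset Amb := equalTile j (dirJ j) (-sh j)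

variable {a : ℤ × ℤ → Idx q → V}

lemma rule_of_tiles (h : ∀ j, Tiles (ruleTile j) (graphOf a)) : Rule a := fun j n x => by
  have := equal_sound a (by simp [sh_self]) (h j) n (x + sh j)
  rwa [add_neg_cancel_right] at this

lemma Rule.complete (h : Rule a) (j : J) : Tiles (ruleTile j) (graphOf a) :=
  equal_complete a (by simp [sh_self]) fun n x => by rw [h j, neg_add_cancel_right]

lemma dep_of_tiles (h : ∀ (u : U) (r : Fin 3) (i : J), (∀ r', i ≠ Sum.inl (u, r')) →
    Tiles (equalTile (Sum.inl (u, r)) 0 (Pi.single i 1)) (graphOf a)) : Dep a := by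
  intro u r n x y hxy
  suffices key : ∀ d : Idx q, (∀ r', d (Sum.inl (u, r')) = 0) → ∀ z,
      (a n (z + d)).1 (Sum.inl (u, r)) = (a n z).1 (Sum.inl (u, r)) by
    have := key (y - x) (fun r' => by simp [hxy r']) x
    rw [add_sub_cancel] at this
    exact this.symm
  intro d hd
  rw [← Finset.univ_sum_single d]
  refine Finset.sum_induction _
    (fun e => ∀ z, (a n (z + e)).1 (Sum.inl (u, r)) = (a n z).1 (Sum.inl (u, r)))
    (fun e e' he he' z => by rw [← add_assoc, he', he]) (fun z => by rw [add_zero]) ?_
  intro i _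
  by_cases hi : ∃ r', i = Sum.inl (u, r')
  · obtain ⟨r', rfl⟩ := hi
    intro z; rw [hd, Pi.single_zero, add_zero]
  rw [not_exists] at hi
  have step : ∀ m : ℕ, ∀ z, (a n (z + m • Pi.single i 1)).1 (Sum.inl (u, r)) =
      (a n z).1 (Sum.inl (u, r)) := by
    intro m
    induction m with
    | zero => intro z; rw [zero_smul, add_zero]
    | succ m ih =>
      intro z
      have := equal_sound a (by rw [Pi.single_eq_of_ne (Ne.symm (hi r))]) (h u r i hi) n
        (z + m • Pi.single i 1)
      rw [add_zero, add_assoc, ← succ_nsmul, ih] at this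
      exact this
  intro z
  have : (d i).val • (Pi.single i 1 : Idx q) = Pi.single i (d i) := by
    rw [← Pi.single_smul, nsmul_eq_mul, mul_one, ZMod.natCast_zmod_val]
  rw [← this]; exact step _ z

lemma Dep.complete (h : Dep a) {u : U} (r : Fin 3) {i : J} (hi : ∀ r', i ≠ Sum.inl (u, r')) :
    Tiles (equalTile (Sum.inl (u, r)) 0 (Pi.single i 1)) (graphOf a) :=
  equal_complete a (by rw [Pi.single_eq_of_ne (Ne.symm (hi r))]) fun n x => by
    rw [add_zero]
    exact h u r n _ _ fun r' => by rw [Pi.add_apply, Pi.single_eq_of_ne (Ne.symm (hi r')), add_zero]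

/-- A component is invariant under its shift at a position. -/
def Inact (a : ℤ × ℤ → Idx q → V) (j : J) (n : ℤ × ℤ) : Prop :=
  ∀ x, (a n (x + sh j)).1 j = (a n x).1 j

/-- A unit is active at a position. -/
def Active (a : ℤ × ℤ → Idx q → V) (u : U) (n : ℤ × ℤ) : Prop :=
  ¬ (Inact a (cP u) n ∧ Inact a (cB u) n)

lemma Rule.iter (h : Rule a) (j : J) (i : ℕ) :
    ∀ n x, (a (n + i • dirJ j) x).1 j = (a n (x + i • sh j)).1 j := by
  induction i with
  | zero => intro n x; simp
  | succ i ih =>
    intro n x
    rw [succ_nsmul, ← add_assoc, h, ih, succ_nsmul', add_assoc]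

lemma Rule.inact_iff (h : Rule a) (j : J) (n : ℤ × ℤ) :
    Inact a j (n + dirJ j) ↔ Inact a j n := by
  constructor
  · intro hi x
    have := hi (x - sh j)
    rwa [h, h, sub_add_cancel] at this
  · intro hi x
    rw [h, h, hi]

lemma Rule.inact_along (h : Rule a) {j : J} {n : ℤ × ℤ} (hi : Inact a j n) (i : ℕ) (x : Idx q) :
    (a (n + i • dirJ j) x).1 j = (a n x).1 j := by
  induction i with
  | zero => simp
  | succ i ih =>
    have hin : Inact a j (n + i • dirJ j) := by
      clear ih
      induction i with
      | zero => simpa using hi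
      | succ i ih => rw [succ_nsmul, ← add_assoc, h.inact_iff]; exact ih
    rw [succ_nsmul, ← add_assoc, h, hin, ih]

lemma Rule.const_inr (h : Rule a) (b : Bool) (n : ℤ × ℤ) (i : ℕ) (x : Idx q) :
    (a (n + i • ((1 : ℤ), (0 : ℤ))) x).1 (Sum.inr b) = (a n x).1 (Sum.inr b) := by
  have := h.iter (Sum.inr b) i n x
  simpa [dirJ] using this

lemma Rule.active_iff (h : Rule a) (u : U) (n : ℤ × ℤ) :
    Active a u (n + dir u) ↔ Active a u n := by
  have h1 := h.inact_iff (cP u) n
  have h2 := h.inact_iff (cB u) n
  simp only [dirJ] at h1 h2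
  rw [Active, Active, h1, h2]

lemma exists_residues {α : Type*} [Fintype α] (m : α → ℕ) [∀ j, NeZero (m j)]
    (hm : Pairwise (Nat.Coprime on m)) (v : ∀ j, ZMod (m j)) :
    ∃ i : ℕ, ∀ j, ((i : ℕ) : ZMod (m j)) = v j := by
  obtain ⟨i, hi⟩ := Nat.chineseRemainderOfFinset (fun j => (v j).val) m univ
    (fun j _ => NeZero.ne (m j)) (fun i _ k _ hik => hm hik)
  refine ⟨i, fun j => ?_⟩
  rw [(ZMod.natCast_eq_natCast_iff _ _ _).2 (hi j (mem_univ j)), ZMod.natCast_zmod_val]

lemma exists_site (v : Idx q) : ∃ i : ℕ, ∀ j, ((i : ℕ) : ZMod (q j)) = v j :=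
  exists_residues q (fun i k hik =>
    (Nat.coprime_primes (q_prime i) (q_prime k)).2 fun e => hik (q_injective e)) v

/-- A number with prescribed residues. -/
noncomputable def site (v : Idx q) : ℕ := (exists_site v).choose

lemma site_spec (v : Idx q) (j : J) : ((site v : ℕ) : ZMod (q j)) = v j :=
  (exists_site v).choose_spec j

/-- One, if a residue is one. -/
def bump {m : ℕ} (k : ℕ) (z : ZMod m) : ZMod k := if z = 1 then 1 else 0

lemma exists_cycle (α : Type*) [Fintype α] : ∃ π : Equiv.Perm α,
    ∀ P : α → Prop, (∀ j, P (π j) → P j) → (∃ j, P j) → ∀ j, P j := by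
  obtain ⟨n, hn⟩ : ∃ n, Fintype.card α = n := ⟨_, rfl⟩
  rcases n with - | n
  · haveI := Fintype.card_eq_zero_iff.1 hn
    exact ⟨Equiv.refl _, fun P _ _ j => isEmptyElim j⟩
  set e : α ≃ ZMod (n + 1) := Fintype.equivFinOfCardEq hn
  refine ⟨e.trans ((Equiv.addRight 1).trans e.symm), fun P hP ⟨j₀, hj₀⟩ j => ?_⟩
  have key : ∀ m : ℕ, P (e.symm (e j₀ - (m : ZMod (n + 1)))) := by
    intro m
    induction m with
    | zero => simpa using hj₀
    | succ m ih =>
      refine hP _ ?_
      simpa [sub_add] using ih
  have := key (e j₀ - e j).val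
  simpa using this

/-- A chosen single cycle. -/
noncomputable def cycleOf (α : Type*) [Fintype α] : Equiv.Perm α := (exists_cycle α).choose

lemma cycleOf_spec {α : Type*} [Fintype α] (P : α → Prop) (h : ∀ j, P (cycleOf α j) → P j)
    (h0 : ∃ j, P j) (j : α) : P j :=
  (exists_cycle α).choose_spec P h h0 j

/-- A cycle of residues is determined by its differences, once one of them is shifted by a unit
slope. -/
lemma cycle_inj {X : Type*} {m : X → ℕ} {next : X → X}
    (hcyc : ∀ P : X → Prop, (∀ x, P (next x) → P x) → (∃ x, P x) → ∀ x, P x)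
    (G : (x : X) → Bool → ZMod (m x)) {x₀ : X} {c : ZMod (m x₀)}
    (hgood : ∀ s : Bool, G x₀ s = c + (if s then 1 else 0))
    {r r' : (x : X) → ZMod (m x)}
    (h : ∀ x, r x - bump (m x) (r (next x)) + G x (decide (r (next x) = 1)) =
      r' x - bump (m x) (r' (next x)) + G x (decide (r' (next x) = 1))) :
    r = r' := by
  have h0 : r x₀ = r' x₀ := by
    have := h x₀
    simp only [hgood, bump, decide_eq_true_eq] at this
    split_ifs at this <;> linear_combination this
  refine funext (hcyc (fun x => r x = r' x) (fun x hx => ?_) ⟨x₀, h0⟩)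
  have := h x
  simp only [bump, hx] at this
  linear_combination this

end Vale.Agent.P043.Three
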